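import Vale.Agent.P004Z.Defs

/-!
# P004Z, block G8: binary quadratic forms, the action, the genus character
-/

set_option autoImplicit false
set_option linter.all false

open Complex UpperHalfPlane CongruenceSubgroup
open scoped MatrixGroups NumberTheorySymbols

noncomputable section

namespace Vale.Agent.P004Z.Hd

section act

variable (l m : Fm) (γ γ' : SL(2, ℤ)) (z : ℍ)

theorem det' : γ 0 0 * γ 1 1 - γ 0 1 * γ 1 0 = 1 := by
  have := γ.det_coe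
  rwa [Matrix.det_fin_two] at this

theorem fa_fa : fa (fa l γ) γ' = fa l (γ * γ') := by
  simp only [fa, Matrix.SpecialLinearGroup.coe_mul, Matrix.mul_apply, Fin.sum_univ_two]
  refine Prod.ext ?_ (Prod.ext ?_ ?_) <;> simp only <;> ring

theorem fa_one : fa l 1 = l := by simp [fa]

theorem fa_inv : fa (fa l γ) γ⁻¹ = l := by rw [fa_fa, mul_inv_cancel, fa_one]

theorem bil_fa : bil (fa l γ) (fa m γ) = bil l m := by
  simp only [bil, fa]
  linear_combination (2 * l.1 * m.2.2 + 2 * m.1 * l.2.2 - l.2.1 * m.2.1) *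
    (γ 0 0 * γ 1 1 - γ 0 1 * γ 1 0 + 1) * det' γ

theorem disc_fa : disc (fa l γ) = disc l := by
  simp only [disc, fa]
  linear_combination (l.2.1 ^ 2 - 4 * l.1 * l.2.2) * (γ 0 0 * γ 1 1 - γ 0 1 * γ 1 0 + 1) * det' γ

theorem fa_neg : fa (-l) γ = -fa l γ := by
  refine Prod.ext ?_ (Prod.ext ?_ ?_) <;> simp only [fa, Prod.fst_neg, Prod.snd_neg] <;> ring

theorem disc_neg : disc (-l) = disc l := by simp [disc]

theorem evq_neg (w : ℂ) : evq (-l) w = -evq l w := by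
  simp only [evq, Prod.fst_neg, Prod.snd_neg, Int.cast_neg]
  ring

theorem den_ne : (γ 1 0 * z + γ 1 1 : ℂ) ≠ 0 := UpperHalfPlane.denom_ne_zero γ z

theorem coe_sm : ((γ • z : ℍ) : ℂ) = (γ 0 0 * z + γ 0 1) / (γ 1 0 * z + γ 1 1) := by
  simpa using coe_specialLinearGroup_apply γ z

theorem evq_fa : evq (fa l γ) z = (γ 1 0 * z + γ 1 1) ^ 2 * evq l (γ • z : ℍ) := by
  have := den_ne γ z
  simp only [evq, fa, coe_sm]
  push_cast
  field_simp
  ring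

theorem root_fa : evq (fa l γ) z = 0 ↔ evq l (γ • z : ℍ) = 0 := by
  rw [evq_fa, mul_eq_zero, or_iff_right (pow_ne_zero 2 (den_ne γ z))]

theorem pz_fa : pz (fa l γ) z = pz l (γ • z : ℍ) := by
  have h1 : normSq (γ 1 0 * z + γ 1 1 : ℂ) ≠ 0 := (normSq_pos.2 (den_ne γ z)).ne'
  have h2 : ((γ • z : ℍ) : ℂ).im = (z : ℂ).im / normSq (γ 1 0 * z + γ 1 1 : ℂ) :=
    ModularGroup.im_smul_eq_div_normSq γ z
  have h3 : (z : ℂ).im ≠ 0 := z.im_ne_zero
  rw [pz, pz, h2, coe_sm, map_div₀, div_re]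
  generalize hn : normSq (γ 1 0 * z + γ 1 1 : ℂ) = n at h1 ⊢
  field_simp
  subst hn
  simp only [fa, normSq_apply, add_re, add_im, mul_re, mul_im, intCast_re, intCast_im]
  push_cast
  ring

end act

/-! ### roots -/

section root

variable {l m : Fm} {z : ℍ}

theorem root_b (h : evq l z = 0) : (l.2.1 : ℝ) = -2 * l.1 * z.re := by
  have := congrArg Complex.im h
  simp [evq, sq] at this
  exact mul_right_cancel₀ z.im_ne_zero (by linear_combination this)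

theorem root_c (h : evq l z = 0) : (l.2.2 : ℝ) = l.1 * (z.re ^ 2 + z.im ^ 2) := by
  have := congrArg Complex.re h
  simp [evq, sq] at this
  linear_combination this - z.re * root_b h

theorem root_d (h : evq l z = 0) : (disc l : ℝ) = -4 * l.1 ^ 2 * z.im ^ 2 := by
  simp only [disc]
  push_cast
  rw [root_b h, root_c h]
  ring

theorem root_eq (h : evq l z = 0) (h' : evq m z = 0) (e : m.1 = l.1) : m = l :=
  Prod.ext e (Prod.ext (Int.cast_injective (α := ℝ) (by rw [root_b h, root_b h', e]))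
    (Int.cast_injective (α := ℝ) (by rw [root_c h, root_c h', e])))

theorem root_zero (h : evq l z = 0) (e : l.1 = 0) : l = 0 := root_eq (l := 0) (by simp [evq]) h e

theorem root_sq (h : evq l z = 0) (h' : evq m z = 0) : disc m * l.1 ^ 2 = disc l * m.1 ^ 2 :=
  Int.cast_injective (α := ℝ) (by
    push_cast
    rw [root_d h, root_d h']
    ring)

theorem root_uniq (h : evq l z = 0) (h' : evq m z = 0) (e : disc m = disc l) : m = l ∨ m = -l := by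
  have : (m.1 : ℝ) ^ 2 = l.1 ^ 2 := mul_right_cancel₀ (pow_ne_zero 2 z.im_ne_zero) (by
    have := congrArg (Int.cast (R := ℝ)) e
    rw [root_d h, root_d h'] at this
    linarith)
  exact (sq_eq_sq_iff_eq_or_eq_neg.1 (show m.1 ^ 2 = l.1 ^ 2 by exact_mod_cast this)).imp
    (root_eq h h') (root_eq (by rw [evq_neg, h, neg_zero]) h')

theorem root_pos (h : evq l z = 0) (h' : evq m z = 0) (e : disc m = disc l) (a : 0 < l.1)
    (b : 0 < m.1) : m = l := (root_uniq h h' e).resolve_right fun e => by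
  rw [e, Prod.fst_neg] at b
  omega

theorem root_fin (D : ℤ) (z : ℍ) : {l : Fm | disc l = D ∧ evq l z = 0}.Finite := by
  rcases Set.eq_empty_or_nonempty {l : Fm | disc l = D ∧ evq l z = 0} with e | ⟨l, h⟩
  · exact e ▸ Set.finite_empty
  · exact (Set.toFinite {l, -l}).subset fun m hm => root_uniq h.2 hm.2 (hm.1.trans h.1.symm)

theorem root_neg (h : evq l z = 0) (a : l.1 ≠ 0) : disc l < 0 := by
  have : (0 : ℝ) < l.1 ^ 2 * z.im ^ 2 := mul_pos (by positivity) (pow_pos z.im_pos 2)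
  exact_mod_cast (show (disc l : ℝ) < 0 by rw [root_d h]; linarith)

/-- a form has one root -/
theorem root_one {w : ℍ} (h : evq l z = 0) (h' : evq l w = 0) (a : l.1 ≠ 0) : z = w := by
  have a' : (l.1 : ℝ) ≠ 0 := Int.cast_ne_zero.2 a
  refine UpperHalfPlane.ext (Complex.ext (mul_left_cancel₀ a' ?_) ?_)
  · change _ * z.re = _ * w.re
    linarith [root_b h, root_b h']
  · exact (pow_left_inj₀ z.im_pos.le w.im_pos.le two_ne_zero).1
      (mul_left_cancel₀ (pow_ne_zero 2 a') (by linarith [root_d h, root_d h']))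

theorem ex_root (d : disc l < 0) (a : 0 < l.1) : ∃ z : ℍ, evq l z = 0 := by
  have a' : (0 : ℝ) < l.1 := Int.cast_pos.2 a
  have d' : (0 : ℝ) < -disc l := by exact_mod_cast neg_pos.2 d
  obtain ⟨s, s0, e⟩ : ∃ s : ℝ, 0 < s ∧ s ^ 2 = 4 * l.1 * l.2.2 - l.2.1 ^ 2 :=
    ⟨_, Real.sqrt_pos.2 d', by rw [Real.sq_sqrt d'.le, disc]; push_cast; ring⟩
  refine ⟨⟨⟨-l.2.1 / (2 * l.1), s / (2 * l.1)⟩, by positivity⟩, Complex.ext ?_ ?_⟩
  · simp [evq, sq]
    field_simp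
    linear_combination -e
  · simp [evq, sq]
    field_simp
    ring

theorem pos_fa (d : disc l < 0) (a : 0 < l.1) (γ : SL(2, ℤ)) : 0 < (fa l γ).1 := by
  have := det' γ
  refine (mul_pos_iff_of_pos_left (a := 4 * l.1) (by omega)).1 ?_
  rw [show 4 * l.1 * (fa l γ).1 = (2 * l.1 * γ 0 0 + l.2.1 * γ 1 0) ^ 2 + -disc l * γ 1 0 ^ 2 by
    simp only [fa, disc]; ring]
  by_cases e : γ 1 0 = 0
  · have : γ 0 0 ≠ 0 := fun e' => by simp [e, e'] at this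
    rw [e, mul_zero, add_zero, sq 0, mul_zero, mul_zero, add_zero]
    have : l.1 ≠ 0 := a.ne'
    positivity
  · have := neg_pos.2 d
    positivity

end root

/-! ### the genus character -/

/-- the value of the form -/
def val (l : Fm) (x y : ℤ) : ℤ := l.1 * x ^ 2 + l.2.1 * x * y + l.2.2 * y ^ 2

/-- the local symbol -/
def gp (p : ℕ) (l : Fm) : ℤ := if (p : ℤ) ∣ l.1 then J(l.2.2 | p) else J(l.1 | p)

theorem gcd_one {p : ℕ} (hp : p.Prime) {a : ℤ} (h : ¬ (p : ℤ) ∣ a) : a.gcd p = 1 :=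
  Int.isCoprime_iff_gcd_eq_one.1 ((Nat.prime_iff_prime_int.1 hp).irreducible.coprime_iff_not_dvd.2
    h).symm

theorem J_dvd {p : ℕ} (hp : 1 < p) {a : ℤ} (h : (p : ℤ) ∣ a) : J(a | p) = 0 := by
  rw [jacobiSym.mod_left, Int.emod_eq_zero_of_dvd h, jacobiSym.zero_left hp]

theorem J_congr {n : ℕ} {a b : ℤ} (h : (n : ℤ) ∣ a - b) : J(a | n) = J(b | n) :=
  jacobiSym.mod_left' (Int.ModEq.symm (Int.modEq_iff_dvd.2 h))

theorem dvd_b {p : ℕ} (hp : p.Prime) {l : Fm} (hd : (p : ℤ) ∣ disc l) (h : (p : ℤ) ∣ l.1) :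
    (p : ℤ) ∣ l.2.1 := (Nat.prime_iff_prime_int.1 hp).dvd_of_dvd_pow (n := 2) (by
  simpa [disc] using dvd_add hd ((h.mul_left 4).mul_right l.2.2))

theorem gp_val {p : ℕ} (hp : p.Prime) (h2 : p ≠ 2) {l : Fm} (hd : (p : ℤ) ∣ disc l) {x y : ℤ}
    (hv : ¬ (p : ℤ) ∣ val l x y) : J(val l x y | p) = gp p l := by
  have pp := Nat.prime_iff_prime_int.1 hp
  rw [gp]
  split_ifs with h
  · have e : (p : ℤ) ∣ val l x y - l.2.2 * y ^ 2 := by
      simpa [val] using dvd_add (h.mul_right (x ^ 2)) (((dvd_b hp hd h).mul_right x).mul_right y)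
    rw [J_congr e, jacobiSym.mul_left, jacobiSym.sq_one' (gcd_one hp fun d => hv ?_), mul_one]
    simpa using dvd_add e ((dvd_pow d two_ne_zero).mul_left l.2.2)
  · have e : (p : ℤ) ∣ (2 * l.1 * x + l.2.1 * y) ^ 2 - 2 ^ 2 * (l.1 * val l x y) := by
      refine (hd.mul_right (y ^ 2)).trans (dvd_of_eq ?_)
      rw [val, disc]
      ring
    have n2 : ¬ (p : ℤ) ∣ 2 := fun d =>
      h2 ((Nat.prime_dvd_prime_iff_eq hp Nat.prime_two).1 (by exact_mod_cast d))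
    have e1 := J_congr e
    rw [jacobiSym.sq_one' (gcd_one hp fun d => ?_), jacobiSym.mul_left,
      jacobiSym.sq_one' (gcd_one hp n2), one_mul, jacobiSym.mul_left] at e1
    · rcases jacobiSym.eq_one_or_neg_one (gcd_one hp h) with e2 | e2 <;> rw [e2] at e1 ⊢ <;> omega
    · rcases pp.dvd_or_dvd ((dvd_sub_right (dvd_pow d two_ne_zero)).1 e) with d | d
      · exact n2 (pp.dvd_of_dvd_pow d)
      · exact (pp.dvd_or_dvd d).elim h hv

theorem dvd_fa {k : ℤ} {l : Fm} (a : k ∣ l.1) (b : k ∣ l.2.1) (c : k ∣ l.2.2) (γ : SL(2, ℤ)) :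
    k ∣ (fa l γ).1 ∧ k ∣ (fa l γ).2.1 ∧ k ∣ (fa l γ).2.2 := by
  simp only [fa]
  refine ⟨?_, ?_, ?_⟩ <;> refine dvd_add (dvd_add ?_ ?_) ?_ <;>
    simp only [mul_assoc, a.mul_right, b.mul_right, c.mul_right, dvd_mul_of_dvd_right]

theorem gp_fa {p : ℕ} (hp : p.Prime) (h2 : p ≠ 2) {l : Fm} (hd : (p : ℤ) ∣ disc l)
    (γ : SL(2, ℤ)) : gp p (fa l γ) = gp p l := by
  rw [gp]
  split_ifs with h
  · by_cases h' : (p : ℤ) ∣ (fa l γ).2.2
    · have := dvd_fa h (dvd_b hp (disc_fa l γ ▸ hd) h) h' γ⁻¹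
      rw [fa_inv] at this
      rw [gp, if_pos this.1, J_dvd hp.one_lt h', J_dvd hp.one_lt this.2.2]
    · exact gp_val hp h2 hd h'
  · exact gp_val hp h2 hd h

theorem ne_two {δ p : ℕ} (h : Odd δ) (hp : p ∈ δ.primeFactors) : p ≠ 2 := fun e =>
  h.not_two_dvd_nat (e ▸ Nat.dvd_of_mem_primeFactors hp)

theorem gc_fa {δ : ℕ} (h : Odd δ) {l : Fm} (hd : (δ : ℤ) ∣ disc l) (γ : SL(2, ℤ)) :
    gc δ (fa l γ) = gc δ l := Finset.prod_congr rfl fun p hp =>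
  gp_fa (Nat.prime_of_mem_primeFactors hp) (ne_two h hp)
    ((Int.natCast_dvd_natCast.2 (Nat.dvd_of_mem_primeFactors hp)).trans hd) γ

theorem J_prod {δ : ℕ} (h : Squarefree δ) (a : ℤ) : J(a | δ) = ∏ p ∈ δ.primeFactors, J(a | p) := by
  conv_lhs => rw [← Nat.prod_primeFactors_of_squarefree h, Finset.prod_eq_multiset_prod,
    ← Multiset.coe_toList (Multiset.map _ _), Multiset.prod_coe]
  rw [jacobiSym.list_prod_right fun n hn => ?_, ← Multiset.prod_coe, ← Multiset.map_coe,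
    Multiset.coe_toList, Multiset.map_map]
  · rfl
  · obtain ⟨p, hp, rfl⟩ := Multiset.mem_map.1 (Multiset.mem_toList.1 hn)
    exact (Nat.prime_of_mem_primeFactors hp).ne_zero

theorem gc_def (δ : ℕ) (l : Fm) : gc δ l = ∏ p ∈ δ.primeFactors, gp p l := rfl

theorem ndvd {δ p : ℕ} (hp : p ∈ δ.primeFactors) {v : ℤ} (hv : IsCoprime v δ) : ¬ (p : ℤ) ∣ v :=
  fun d => (Nat.prime_iff_prime_int.1 (Nat.prime_of_mem_primeFactors hp)).not_unit
    (hv.isUnit_of_dvd' d (Int.natCast_dvd_natCast.2 (Nat.dvd_of_mem_primeFactors hp)))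

/-- the genus character is the symbol of any value prime to `δ` -/
theorem gc_eq {δ : ℕ} (h : Odd δ) (hs : Squarefree δ) {l : Fm} (hd : (δ : ℤ) ∣ disc l) {x y : ℤ}
    (hv : IsCoprime (val l x y) δ) : gc δ l = J(val l x y | δ) := by
  rw [J_prod hs]
  exact Finset.prod_congr rfl fun p hp => (gp_val (Nat.prime_of_mem_primeFactors hp) (ne_two h hp)
    ((Int.natCast_dvd_natCast.2 (Nat.dvd_of_mem_primeFactors hp)).trans hd) (ndvd hp hv)).symm

theorem gc_smul {δ : ℕ} (hs : Squarefree δ) {k : ℤ} (hk : IsCoprime k δ) (l : Fm) :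
    gc δ (k • l) = J(k | δ) * gc δ l := by
  rw [J_prod hs, gc_def, gc_def, ← Finset.prod_mul_distrib]
  refine Finset.prod_congr rfl fun p hp => ?_
  simp only [gp, Prod.smul_fst, Prod.smul_snd, smul_eq_mul, jacobiSym.mul_left,
    (Nat.prime_iff_prime_int.1 (Nat.prime_of_mem_primeFactors hp)).dvd_mul, ndvd hp hk, false_or]
  split_ifs <;> rfl

theorem gc_neg {δ : ℕ} (hs : Squarefree δ) (l : Fm) : gc δ (-l) = eps δ * gc δ l := by
  rw [← neg_one_smul ℤ l]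
  exact gc_smul hs isCoprime_one_left.neg_left l

theorem eps_sq (δ : ℕ) : eps δ * eps δ = 1 := by
  rw [← sq, eps, jacobiSym.sq_one (by simp)]

/-- not divisible by any prime of `S` -/
def Prm (S : ℤ) (l : Fm) : Prop :=
  ∀ p : ℕ, p.Prime → (p : ℤ) ∣ S → (p : ℤ) ∣ l.1 → (p : ℤ) ∣ l.2.1 → ¬ (p : ℤ) ∣ l.2.2

theorem prm_gc {δ : ℕ} (h0 : δ ≠ 0) {l : Fm} (h : gc δ l ≠ 0) : Prm δ l := fun p hp d a _ c =>
  h (Finset.prod_eq_zero (Nat.mem_primeFactors.2 ⟨hp, Int.natCast_dvd_natCast.1 d, h0⟩)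
    ((if_pos a).trans (J_dvd hp.one_lt c)))

theorem gc_zero {δ : ℕ} (h : 1 < δ) : gc δ 0 = 0 := by
  by_contra e
  obtain ⟨p, hp, d⟩ := Nat.exists_prime_and_dvd h.ne'
  exact prm_gc (by omega) e p hp (Int.natCast_dvd_natCast.2 d) (dvd_zero _) (dvd_zero _)
    (dvd_zero _)

theorem cop_of {a b : ℤ} (h : ∀ p : ℕ, p.Prime → (p : ℤ) ∣ a → ¬ (p : ℤ) ∣ b) : IsCoprime a b :=
  Int.isCoprime_iff_gcd_eq_one.2 (Nat.eq_one_iff_not_exists_prime_dvd.2 fun p hp d =>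
    h p hp ((Int.natCast_dvd_natCast.2 d).trans (Int.gcd_dvd_left a b))
      ((Int.natCast_dvd_natCast.2 d).trans (Int.gcd_dvd_right a b)))

/-- a matrix with given entries -/
def mk (a b c d : ℤ) (h : a * d - b * c = 1) : SL(2, ℤ) :=
  ⟨!![a, b; c, d], by rw [Matrix.det_fin_two_of, h]⟩

theorem fa_mk (l : Fm) {a b c d : ℤ} (h : a * d - b * c = 1) : fa l (mk a b c d h) =
    (val l a c, 2 * l.1 * a * b + l.2.1 * (a * d + b * c) + 2 * l.2.2 * c * d, val l b d) := rfl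

open Classical in
/-- a primitive form represents a number prime to `S` -/
theorem rep {S : ℤ} (h0 : S ≠ 0) {l : Fm} (h : Prm S l) : ∃ γ, IsCoprime (fa l γ).2.2 S := by
  have k : ∀ (P : ℕ → Prop) (p : ℕ), p.Prime → ((p : ℤ) ∣ ∏ q ∈ S.natAbs.primeFactors.filter P,
      (q : ℤ) ↔ (p : ℤ) ∣ S ∧ P p) := fun P p hp => by
    rw [(Nat.prime_iff_prime_int.1 hp).dvd_finset_prod_iff]
    refine ⟨fun ⟨q, h1, h2⟩ => ?_, fun h => ⟨p, Finset.mem_filter.2 ⟨Nat.mem_primeFactors.2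
      ⟨hp, Int.natCast_dvd.1 h.1, Int.natAbs_ne_zero.2 h0⟩, h.2⟩, dvd_rfl⟩⟩
    obtain ⟨h3, h4⟩ := Finset.mem_filter.1 h1
    rw [(Nat.prime_dvd_prime_iff_eq hp (Nat.prime_of_mem_primeFactors h3)).1
      (Int.natCast_dvd_natCast.1 h2)]
    exact ⟨Int.natCast_dvd.2 (Nat.dvd_of_mem_primeFactors h3), h4⟩
  obtain ⟨x, hx⟩ : ∃ x : ℤ, ∀ p : ℕ, p.Prime →
    ((p : ℤ) ∣ x ↔ (p : ℤ) ∣ S ∧ (p : ℤ) ∣ l.1 ∧ ¬ (p : ℤ) ∣ l.2.2) := ⟨_, k _⟩
  obtain ⟨y, hy⟩ : ∃ y : ℤ, ∀ p : ℕ, p.Prime → ((p : ℤ) ∣ y ↔ (p : ℤ) ∣ S ∧ ¬ (p : ℤ) ∣ l.1) :=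
    ⟨_, k _⟩
  obtain ⟨u, v, e⟩ : IsCoprime x y := cop_of fun p hp a b => ((hy p hp).1 b).2 ((hx p hp).1 a).2.1
  refine ⟨mk v x (-u) y (by linarith), (cop_of fun p hp a b => ?_).symm⟩
  have pp := Nat.prime_iff_prime_int.1 hp
  have := h p hp a
  have := hx p hp
  have := hy p hp
  change _ ∣ l.1 * x ^ 2 + l.2.1 * x * y + l.2.2 * y ^ 2 at b
  by_cases h1 : (p : ℤ) ∣ l.1
  · rw [add_assoc, dvd_add_right (h1.mul_right _)] at b
    by_cases h2 : (p : ℤ) ∣ l.2.2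
    · rw [dvd_add_left (h2.mul_right _), pp.dvd_mul, pp.dvd_mul] at b
      tauto
    · rw [dvd_add_right (((show (p : ℤ) ∣ x by tauto).mul_left _).mul_right _), pp.dvd_mul,
        pp.dvd_pow_iff_dvd two_ne_zero] at b
      tauto
  · have d : (p : ℤ) ∣ y := by tauto
    rw [dvd_add_left ((dvd_pow d two_ne_zero).mul_left _), dvd_add_left (d.mul_left _), pp.dvd_mul,
      pp.dvd_pow_iff_dvd two_ne_zero] at b
    tauto

/-! ### the functions `ph` -/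

variable {N δ : ℕ} {r : ZMod (2 * N)} {l : Fm}

theorem cast_eq {n : ℕ} {a b : ℤ} (h : (n : ℤ) ∣ a - b) : (a : ZMod n) = b :=
  ((ZMod.intCast_eq_intCast_iff_dvd_sub b a n).2 h).symm

theorem g0_dvd {γ : SL(2, ℤ)} : γ ∈ Gamma0 N ↔ (N : ℤ) ∣ γ 1 0 :=
  Gamma0_mem.trans (ZMod.intCast_zmod_eq_zero_iff_dvd _ _)

theorem fa_g0 {γ : SL(2, ℤ)} (hγ : γ ∈ Gamma0 N) (h : (N : ℤ) ∣ l.1) :
    (N : ℤ) ∣ (fa l γ).1 ∧ ((fa l γ).2.1 : ZMod (2 * N)) = l.2.1 := by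
  obtain ⟨a, ha⟩ := h
  obtain ⟨c, hc⟩ := g0_dvd.1 hγ
  have := det' γ
  refine ⟨⟨a * γ 0 0 ^ 2 + l.2.1 * γ 0 0 * c + l.2.2 * c * γ 1 0, ?_⟩,
    cast_eq ⟨a * γ 0 0 * γ 0 1 + l.2.1 * γ 0 1 * c + l.2.2 * c * γ 1 1, ?_⟩⟩
  · simp only [fa, ha, hc]
    ring
  · simp only [fa, ha, hc] at this ⊢
    push_cast
    linear_combination l.2.1 * this

theorem ph_fa (h : Odd δ) (r : ZMod (2 * N)) (l : Fm) {γ : SL(2, ℤ)} (hγ : γ ∈ Gamma0 N) :
    ph N δ r (fa l γ) = ph N δ r l := by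
  refine if_ctx_congr ⟨fun a => ?_, fun a => ?_⟩ (fun a => gc_fa h a.2.2 γ) fun _ => rfl
  · have := fa_g0 (inv_mem hγ) a.1
    rw [fa_inv] at this
    exact ⟨this.1, this.2.trans a.2.1, disc_fa l γ ▸ a.2.2⟩
  · exact ⟨(fa_g0 hγ a.1).1, (fa_g0 hγ a.1).2.trans a.2.1, (disc_fa l γ).symm ▸ a.2.2⟩

theorem ph_neg (h : Squarefree δ) (r : ZMod (2 * N)) (l : Fm) :
    ph N δ (-r) (-l) = eps δ * ph N δ r l := by
  simp only [ph, disc_neg, Prod.fst_neg, Prod.snd_neg, dvd_neg, Int.cast_neg, neg_inj, gc_neg h,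
    mul_ite, mul_zero]

theorem ph_zero (h : 1 < δ) : ph N δ r 0 = 0 := by rw [ph, gc_zero h, ite_self]

theorem ph_ne (h : ph N δ r l ≠ 0) :
    (N : ℤ) ∣ l.1 ∧ (l.2.1 : ZMod (2 * N)) = r ∧ (δ : ℤ) ∣ disc l ∧ gc δ l ≠ 0 := by
  rw [ph] at h
  split_ifs at h with a
  exacts [⟨a.1, a.2.1, a.2.2, h⟩, absurd rfl h]

end Vale.Agent.P004Z.Hd
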