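import Vale.Agent.P004Z.St
import Vale.Agent.P004Z.Hd.Bas

/-!
# P004Z, block G8: row HDIV
-/

set_option autoImplicit false
set_option linter.all false

open Complex UpperHalfPlane CongruenceSubgroup
open scoped MatrixGroups NumberTheorySymbols

noncomputable section

namespace Vale.Agent.P004Z

namespace Hd

/-- the action of a triangular matrix -/
def ut (p q s : ℤ) (l : Fm) : Fm :=
  (l.1 * p ^ 2, p * (2 * l.1 * q + l.2.1 * s), l.1 * q ^ 2 + l.2.1 * q * s + l.2.2 * s ^ 2)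

variable {p q s : ℤ} {N δ : ℕ}

theorem disc_ut (l : Fm) : disc (ut p q s l) = (p * s) ^ 2 * disc l := by
  simp only [disc, ut]
  ring

theorem evq_ut (hs : s ≠ 0) (l : Fm) (z : ℂ) :
    evq (ut p q s l) z = s ^ 2 * evq l ((p * z + q) / s) := by
  have : (s : ℂ) ≠ 0 := Int.cast_ne_zero.2 hs
  simp only [evq, ut]
  push_cast
  field_simp
  ring

theorem ut_inj (hp : p ≠ 0) (hs : s ≠ 0) : Function.Injective (ut p q s) := fun l m e => by
  simp only [ut, Prod.mk.injEq] at e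
  have e1 := mul_right_cancel₀ (pow_ne_zero 2 hp) e.1
  have e2 := mul_left_cancel₀ hp e.2.1
  rw [e1, add_right_inj] at e2
  have e3 := mul_right_cancel₀ hs e2
  have e4 := e.2.2
  rw [e1, e3, add_right_inj] at e4
  exact Prod.ext e1 (Prod.ext e3 (mul_right_cancel₀ (pow_ne_zero 2 hs) e4))

theorem gc_ut (h : IsCoprime (p * s) δ) {l : Fm} (hd : (δ : ℤ) ∣ disc l) :
    gc δ (ut p q s l) = gc δ l := Finset.prod_congr rfl fun π hπ => by
  have h0 := Nat.prime_of_mem_primeFactors hπ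
  have h1 := ndvd hπ h.of_mul_left_left
  have h2 := ndvd hπ h.of_mul_left_right
  simp only [ut, (Nat.prime_iff_prime_int.1 h0).dvd_mul, sq p, h1, or_false]
  split_ifs with a
  · have b := dvd_b h0 ((Int.natCast_dvd_natCast.2 (Nat.dvd_of_mem_primeFactors hπ)).trans hd) a
    rw [J_congr (b := l.2.2 * s ^ 2) (by
      simpa using dvd_add (a.mul_right (q ^ 2)) ((b.mul_right q).mul_right s)), jacobiSym.mul_left,
      jacobiSym.sq_one' (gcd_one h0 h2), mul_one]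
  · rw [jacobiSym.mul_left, ← sq, jacobiSym.sq_one' (gcd_one h0 h1), mul_one]

theorem unit_of {k : ℤ} {n : ℕ} (h : IsCoprime k n) : IsUnit (k : ZMod n) := by
  obtain ⟨u, v, e⟩ := h
  exact .of_mul_eq_one_right (u : ZMod n) (by simpa using congrArg (Int.cast (R := ZMod n)) e)

theorem dv_iff {a b c : ℤ} (h : IsCoprime b a) : a ∣ b * c ↔ a ∣ c :=
  ⟨h.symm.dvd_of_dvd_mul_left, fun d => d.mul_left _⟩

theorem cop3 {k : ℤ} (h : IsCoprime k (2 * N * δ : ℕ)) :
    IsCoprime k N ∧ IsUnit (k : ZMod (2 * N)) ∧ IsCoprime k δ := by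
  rw [Nat.cast_mul] at h
  exact ⟨(Nat.cast_mul (α := ℤ) 2 N ▸ h.of_mul_right_left).of_mul_right_right,
    unit_of h.of_mul_right_left, h.of_mul_right_right⟩

theorem ph_ut (h : IsCoprime (p * s) (2 * N * δ : ℕ)) (r : ZMod (2 * N)) (l : Fm) :
    ph N δ ((p * s : ℤ) * r) (ut p q s l) = ph N δ r l := by
  obtain ⟨h1, h2, h3⟩ := cop3 h
  have e := dv_iff (c := disc l) (h3.pow_left (m := 2))
  refine if_ctx_congr ?_ (fun a => gc_ut h3 a.2.2) fun _ => rfl
  rw [disc_ut, e, show (ut p q s l).1 = p ^ 2 * l.1 from mul_comm _ _,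
    dv_iff h1.of_mul_left_left.pow_left]
  refine and_congr_right fun ⟨a, ha⟩ => and_congr_left' ?_
  rw [cast_eq (b := p * s * l.2.1) ⟨p * a * q, by simp only [ut, ha]; push_cast; ring⟩,
    Int.cast_mul _ l.2.1, h2.mul_right_inj]

theorem ph_smul (hs : Squarefree δ) {k : ℤ} (h : IsCoprime k (2 * N * δ : ℕ)) (r : ZMod (2 * N))
    (l : Fm) : ph N δ (k * r) (k • l) = J(k | δ) * ph N δ r l := by
  obtain ⟨h1, h2, h3⟩ := cop3 h
  have : disc (k • l) = k ^ 2 * disc l := by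
    simp only [disc, Prod.smul_fst, Prod.smul_snd, smul_eq_mul]
    ring
  simp only [ph, this, Prod.smul_fst, Prod.smul_snd, smul_eq_mul, dv_iff h1, dv_iff h3.pow_left,
    Int.cast_mul, h2.mul_right_inj, gc_smul hs h3, mul_ite, mul_zero]

theorem sum_zm {l : ℕ} [NeZero l] {B : Type} [AddCommMonoid B] (f : ZMod l → B) :
    ∑ ν ∈ Finset.range l, f ν = ∑ x, f x :=
  Finset.sum_nbij' (fun ν => (ν : ZMod l)) ZMod.val (fun _ _ => Finset.mem_univ _)
    (fun x _ => Finset.mem_range.2 x.val_lt) (fun _ h => ZMod.val_cast_of_lt (Finset.mem_range.1 h))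
    (fun x _ => ZMod.natCast_zmod_val x) fun _ _ => rfl

theorem q_cnt {l : ℕ} [Fact l.Prime] (h2 : l ≠ 2) (a b c : ZMod l) :
    (if a = 0 then 1 else 0) + ∑ x, (if a * x ^ 2 - b * x + c = 0 then 1 else 0 : ℤ) =
      1 + quadraticChar (ZMod l) (b ^ 2 - 4 * a * c) +
        l * if a = 0 ∧ b = 0 ∧ c = 0 then 1 else 0 := by
  have hc : ringChar (ZMod l) ≠ 2 := (ZMod.ringChar_zmod_n l).symm ▸ h2
  have n2 : (2 : ZMod l) ≠ 0 := Ring.two_ne_zero hc
  by_cases ha : a = 0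
  · subst ha
    by_cases hb : b = 0
    · by_cases h : c = 0 <;> simp [hb, h]
    · have : ∀ x, -(b * x) + c = 0 ↔ x = c / b := fun x => by
        rw [eq_div_iff hb]
        exact ⟨fun h => by linear_combination -h, fun h => by linear_combination -h⟩
      simp [hb, this, quadraticChar_sq_one' hb]
  · rw [if_neg ha, if_neg fun h => ha h.1, mul_zero, add_zero, zero_add, add_comm,
      ← quadraticChar_card_sqrts hc, Finset.sum_boole]
    refine congrArg _ (Finset.card_nbij' (fun x => 2 * a * x - b) (fun y => (y + b) / (2 * a))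
      (fun x hx => ?_) (fun y hy => ?_) (fun x _ => by field_simp; ring) fun y _ => by
        field_simp; ring)
    · simp only [Finset.coe_filter, Finset.mem_univ, true_and, Set.coe_toFinset,
        Set.mem_setOf_eq] at hx ⊢
      linear_combination 4 * a * hx
    · simp only [Finset.coe_filter, Finset.mem_univ, true_and, Set.coe_toFinset,
        Set.mem_setOf_eq] at hy ⊢
      field_simp
      linear_combination hy

theorem mem_smul {k : ℤ} {m : Fm} :
    m ∈ Set.range (fun μ : Fm => k • μ) ↔ k ∣ m.1 ∧ k ∣ m.2.1 ∧ k ∣ m.2.2 :=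
  ⟨fun ⟨μ, e⟩ => e ▸ ⟨dvd_mul_right _ _, dvd_mul_right _ _, dvd_mul_right _ _⟩,
    fun ⟨⟨a, x⟩, ⟨b, y⟩, c, z⟩ => ⟨(a, b, c), Prod.ext x.symm (Prod.ext y.symm z.symm)⟩⟩

theorem mem_dg {k : ℤ} {m : Fm} : m ∈ Set.range (ut k 0 1) ↔ k ^ 2 ∣ m.1 ∧ k ∣ m.2.1 :=
  ⟨fun ⟨μ, e⟩ => e ▸ ⟨dvd_mul_left _ _, dvd_mul_right _ _⟩, fun ⟨⟨a, x⟩, b, y⟩ =>
    ⟨(a, b, m.2.2), Prod.ext (by simp [ut, x, mul_comm]) (Prod.ext (by simp [ut, y])
      (by simp [ut]))⟩⟩

theorem mem_nu {k ν : ℤ} {m : Fm} : m ∈ Set.range (ut 1 ν k) ↔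
    k ∣ m.2.1 - 2 * m.1 * ν ∧ k ^ 2 ∣ m.1 * ν ^ 2 - m.2.1 * ν + m.2.2 :=
  ⟨fun ⟨μ, e⟩ => e ▸ ⟨⟨μ.2.1, by simp only [ut]; ring⟩, μ.2.2, by simp only [ut]; ring⟩,
    fun ⟨⟨b, x⟩, c, y⟩ => ⟨(m.1, b, c), Prod.ext (by simp [ut]) (Prod.ext (by
      simp only [ut]; linear_combination -x) (by simp only [ut]; linear_combination -ν * x - y))⟩⟩

open Classical in
theorem cnt {l : ℕ} (hl : l.Prime) (h2 : l ≠ 2) {m : Fm} {D : ℤ} (h : disc m = l ^ 2 * D) :
    1 + J(D | l) * (if m ∈ Set.range (fun μ : Fm => (l : ℤ) • μ) then 1 else 0) +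
      l * (if m ∈ Set.range (fun μ : Fm => ((l : ℤ) ^ 2) • μ) then 1 else 0) =
    (if m ∈ Set.range (ut l 0 1) then 1 else 0) +
      ∑ ν ∈ Finset.range l, if m ∈ Set.range (ut 1 ν l) then 1 else 0 := by
  have := Fact.mk hl
  have pp := Nat.prime_iff_prime_int.1 hl
  have l0 := pp.ne_zero
  have n2 : ¬ (l : ℤ) ∣ 2 := fun d =>
    h2 ((Nat.prime_dvd_prime_iff_eq hl Nat.prime_two).1 (by exact_mod_cast d))
  have hd : (l : ℤ) ∣ disc m := h ▸ (dvd_pow_self _ two_ne_zero).mul_right _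
  have cp : ∀ a : ℤ, ¬ (l : ℤ) ∣ a → IsCoprime ((l : ℤ) ^ 2) (2 * 2 * a) := fun a ha =>
    have k := fun n => pp.irreducible.coprime_iff_not_dvd (n := n)
    ((((k _).2 n2).mul_right ((k _).2 n2)).mul_right ((k _).2 ha)).pow_left
  by_cases h1 : m ∈ Set.range (fun μ : Fm => (l : ℤ) • μ)
  · rw [if_pos h1]
    obtain ⟨⟨a, b, c⟩, rfl⟩ := h1
    have e : D = b ^ 2 - 4 * a * c := mul_left_cancel₀ (pow_ne_zero 2 l0) (by
      simp only [disc, Prod.smul_mk, smul_eq_mul] at h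
      linear_combination -h)
    have k := q_cnt h2 (a : ZMod l) b c
    rw [← sum_zm fun x : ZMod l => if a * x ^ 2 - b * x + c = 0 then (1 : ℤ) else 0] at k
    simp only [mem_smul, mem_dg, mem_nu, Prod.smul_mk, smul_eq_mul, sq (l : ℤ),
      mul_dvd_mul_iff_left l0, dvd_mul_right, and_true, mul_one]
    simp only [ZMod.intCast_zmod_eq_zero_iff_dvd] at k
    rw [← jacobiSym.legendreSym.to_jacobiSym, legendreSym, e]
    push_cast
    rw [← k]
    refine congrArg _ (Finset.sum_congr rfl fun ν _ => if_congr ?_ rfl rfl)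
    rw [show (l * a * ν ^ 2 - l * b * ν + l * c : ℤ) = l * (a * ν ^ 2 - b * ν + c) by ring,
      mul_dvd_mul_iff_left l0, and_iff_right ⟨b - 2 * a * ν, by ring⟩,
      ← ZMod.intCast_zmod_eq_zero_iff_dvd]
    push_cast
    rfl
  rw [if_neg h1, if_neg fun ⟨μ, e⟩ => h1 ⟨(l : ℤ) • μ, by simp only [← e, smul_smul, sq]⟩,
    mul_zero, mul_zero, add_zero, add_zero]
  simp only [mem_smul, mem_dg, mem_nu] at h1 ⊢
  by_cases a : (l : ℤ) ∣ m.1
  · have b := dvd_b hl hd a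
    have c : ¬ (l : ℤ) ∣ m.2.2 := fun c => h1 ⟨a, b, c⟩
    rw [if_pos ⟨(cp _ c).dvd_of_dvd_mul_left (by
      convert dvd_sub (pow_dvd_pow_of_dvd b 2) ⟨D, h⟩ using 1
      rw [disc]
      ring), b⟩, Finset.sum_eq_zero fun ν _ => if_neg fun e => c ((dvd_add_right
        (dvd_sub (a.mul_right _) (b.mul_right _))).1 ((dvd_pow_self _ two_ne_zero).trans e.2)),
      add_zero]
  · have a' : (2 * m.1 : ZMod l) ≠ 0 := by
      have := (ZMod.intCast_zmod_eq_zero_iff_dvd _ l).not.2 fun d => (pp.dvd_or_dvd d).elim n2 a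
      exact_mod_cast this
    rw [if_neg fun e => a ((dvd_pow_self _ two_ne_zero).trans e.1), zero_add]
    refine Eq.symm ((Finset.sum_congr rfl fun ν _ => if_congr ?_ rfl rfl).trans
      ((sum_zm fun x : ZMod l => if x = m.2.1 / (2 * m.1) then (1 : ℤ) else 0).trans (by simp)))
    rw [and_iff_left_of_imp fun e => (cp _ a).dvd_of_dvd_mul_left (by
      convert dvd_sub (pow_dvd_pow_of_dvd e 2) ⟨D, h⟩ using 1
      rw [disc]
      ring), ← ZMod.intCast_zmod_eq_zero_iff_dvd, eq_div_iff a']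
    push_cast
    rw [sub_eq_zero, eq_comm, mul_comm]

open Classical in
theorem push {ψ : Fm → ℤ} {S : Finset Fm} (h : ∀ m, ψ m ≠ 0 → m ∈ S) {f : Fm → Fm}
    (hf : Function.Injective f) :
    ∑ᶠ μ, ψ (f μ) = ∑ m ∈ S, (if m ∈ Set.range f then 1 else 0) * ψ m := by
  rw [← finsum_mem_range hf, finsum_mem_def, finsum_eq_sum_of_support_subset _ (s := S)
    fun m hm => h m fun e => hm (by simp [Set.indicator_apply, e])]
  simp only [Set.indicator_apply, ite_mul, one_mul, zero_mul]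

theorem coe_of {w : ℂ} (h : 0 < w.im) : (ofComplex w : ℂ) = w := by
  rw [ofComplex_apply_of_im_pos h]

theorem hd1 [NeZero N] {l : ℕ} (h : Ok N δ) (hl : l.Prime) (hn : ¬ l ∣ 2 * N * δ) (n : ℕ)
    (r : ZMod (2 * N)) (z : ℍ) :
    Zd N δ (l ^ 2 * n) (l * r) z + J(l | δ) * J(-((δ : ℤ) * n) | l) * Zd N δ n r z +
      (if l ^ 2 ∣ n then l * Zd N δ (n / l ^ 2) ((l : ZMod (2 * N))⁻¹ * r) z else 0) =
    Zd N δ n r (ofComplex (l * z)) +
      ∑ ν ∈ Finset.range l, Zd N δ n r (ofComplex ((z + ν) / l)) := by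
  classical
  have cp : IsCoprime (l : ℤ) (2 * N * δ : ℕ) :=
    Nat.isCoprime_iff_coprime.2 (hl.coprime_iff_not_dvd.2 hn)
  have l0 : (l : ℤ) ≠ 0 := Int.natCast_ne_zero.2 hl.ne_zero
  have l1 : (l : ℂ) ≠ 0 := Nat.cast_ne_zero.2 hl.ne_zero
  have l2 : (0 : ℝ) < l := Nat.cast_pos.2 hl.pos
  obtain ⟨ψ, hψ⟩ : ∃ ψ : Fm → ℤ, ∀ m, ψ m = if disc m = l ^ 2 * -((δ : ℤ) * n) ∧ evq m z = 0 then
    ph N δ (l * r) m else 0 := ⟨_, fun _ => rfl⟩
  let S := (root_fin (l ^ 2 * -((δ : ℤ) * n)) z).toFinset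
  have hS : ∀ m, ψ m ≠ 0 → m ∈ S := fun m hm =>
    (Set.Finite.mem_toFinset _).2 (ite_ne_right_iff.1 (hψ m ▸ hm)).1
  have ev : ∀ (k : ℤ) μ, evq (k • μ) z = k * evq μ z := fun k μ => by
    simp only [evq, Prod.smul_fst, Prod.smul_snd, smul_eq_mul]
    push_cast
    ring
  have di : ∀ (k : ℤ) μ, disc (k • μ) = k ^ 2 * disc μ := fun k μ => by
    simp only [disc, Prod.smul_fst, Prod.smul_snd, smul_eq_mul]
    ring
  have e1 : Zd N δ (l ^ 2 * n) (l * r) z = ∑ m ∈ S, ψ m := by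
    rw [← finsum_eq_sum_of_support_subset _ fun m hm => hS m hm]
    refine finsum_congr fun m => (if_congr (and_congr_left' ?_) rfl rfl).trans (hψ m).symm
    push_cast
    rw [mul_left_comm, mul_neg]
  have e2 : J(l | δ) * Zd N δ n r z = ∑ᶠ μ, ψ ((l : ℤ) • μ) := by
    rw [Zd, mul_finsum]
    refine finsum_congr fun μ => ?_
    have := ph_smul h.sq cp r μ
    rw [Int.cast_natCast] at this
    rw [hψ, ev, di, this]
    simp [hl.ne_zero, -mul_neg]
  have e3 : (if l ^ 2 ∣ n then l * Zd N δ (n / l ^ 2) ((l : ZMod (2 * N))⁻¹ * r) z else 0) =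
      l * ∑ᶠ μ, ψ (((l : ℤ) ^ 2) • μ) := by
    split_ifs with d
    · obtain ⟨n, rfl⟩ := d
      rw [Nat.mul_div_cancel_left _ (pow_pos hl.pos 2)]
      refine congrArg _ (finsum_congr fun μ => ?_)
      have := ph_smul h.sq (cp.pow_left (m := 2)) ((l : ZMod (2 * N))⁻¹ * r) μ
      rw [jacobiSym.sq_one' (Int.isCoprime_iff_gcd_eq_one.1 (cop3 cp).2.2), one_mul, Int.cast_pow,
        Int.cast_natCast, sq (l : ZMod (2 * N)), mul_assoc, ← mul_assoc _ _ r,
        ZMod.mul_inv_of_unit _ (Int.cast_natCast (R := ZMod (2 * N)) l ▸ (cop3 cp).2.1),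
        one_mul] at this
      rw [hψ, this, ev, di, show (l : ℤ) ^ 2 * -((δ : ℤ) * (l ^ 2 * n : ℕ)) =
        (l ^ 2) ^ 2 * -((δ : ℤ) * n) by push_cast; ring]
      simp [hl.ne_zero, -mul_neg]
    · rw [finsum_eq_zero_of_forall_eq_zero fun μ => (hψ _).trans (if_neg fun e => d ?_), mul_zero]
      have := e.1
      rw [di, sq ((l : ℤ) ^ 2), mul_assoc, mul_right_inj' (pow_ne_zero 2 l0)] at this
      exact_mod_cast ((cop3 cp).2.2.pow_left (m := 2)).dvd_of_dvd_mul_left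
        (dvd_neg.1 ⟨_, this.symm⟩)
  have e4 : ∀ p q s : ℤ, p * s = l → ∀ w : ℂ, w = (p * z + q) / s → 0 < w.im →
      Zd N δ n r (ofComplex w) = ∑ᶠ μ, ψ (ut p q s μ) := fun p q s e w hw h0 =>
    finsum_congr fun μ => by
      have s0 : s ≠ 0 := right_ne_zero_of_mul (e ▸ l0)
      have := ph_ut (q := q) (e ▸ cp) r μ
      rw [e, Int.cast_natCast] at this
      simp [hψ, this, evq_ut s0, disc_ut, e, coe_of h0, ← hw, hl.ne_zero, s0, -mul_neg]
  rw [mul_right_comm, e1, e2, e3, e4 l 0 1 (mul_one _) _ (by simp) (by simp [l2, z.im_pos]),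
    Finset.sum_congr rfl fun (ν : ℕ) _ => (e4 1 ν l (one_mul _) ((z + ν) / l) (by simp) (by
      simp [div_natCast_im, l2, z.im_pos])).trans (push hS (ut_inj one_ne_zero l0)),
    push hS (smul_right_injective _ l0), push hS (smul_right_injective _ (pow_ne_zero 2 l0)),
    push hS (ut_inj l0 one_ne_zero), Finset.sum_comm, Finset.sum_mul, Finset.mul_sum,
    ← Finset.sum_add_distrib, ← Finset.sum_add_distrib, ← Finset.sum_add_distrib]
  refine Finset.sum_congr rfl fun m hm => ?_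
  rw [← Finset.sum_mul, ← add_mul, ← cnt hl (fun e => hn (e ▸ (dvd_mul_right 2 N).mul_right δ))
    ((Set.Finite.mem_toFinset _).1 hm).1]
  ring

variable [NeZero N]

/-- the divisor is linear in the principal part -/
def ZL (δ : ℕ) : PP N →ₗ[ℂ] ℍ → ℂ :=
  Finsupp.linearCombination ℂ fun i z => (Zd N δ i.1 i.2 z : ℂ)

theorem ZL_eq (c : PP N) : Zc δ c = ZL δ c := funext fun z => by
  simp [Zc, ZL, Finsupp.linearCombination_apply, Finsupp.sum]

end Hd

open Hd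

theorem hdiv : HDIV := fun N _ δ l h hl hn c => by
  rw [ZL_eq, ZL_eq]
  refine LinearMap.congr_fun (f := ZL δ ∘ₗ Tt δ l) (g := Tdiv l ∘ₗ ZL δ)
    (Finsupp.lhom_ext fun i a => funext fun z => ?_) c
  have := congrArg (fun k : ℤ => a * (k : ℂ)) (hd1 h hl hn i.1 i.2 z)
  simp only [Int.cast_add, Int.cast_mul, Int.cast_ite, Int.cast_zero, Int.cast_natCast,
    Int.cast_sum] at this
  simp only [LinearMap.comp_apply, Tt, Finsupp.lsum_single, LinearMap.toSpanSingleton_apply,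
    map_smul, map_add, apply_ite (ZL δ), map_zero]
  simp only [ZL, Finsupp.linearCombination_single, map_smul, Pi.smul_apply, Pi.add_apply,
    ite_apply, Pi.zero_apply, smul_eq_mul, one_mul, Int.cast_mul]
  exact this

end Vale.Agent.P004Z
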