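import Vale.Agent.P004Z.Hd.Dv
import Vale.Agent.P004Z.Hd.He
import Vale.Agent.P004H.H871.Kron

/-!
# P004Z, block G8: rows KL and BDV
-/

set_option autoImplicit false
set_option linter.all false

open Complex UpperHalfPlane CongruenceSubgroup
open scoped MatrixGroups NumberTheorySymbols

noncomputable section

namespace Vale.Agent.P004Z

namespace Hd

theorem crt {a b : ℤ} (h : IsCoprime a b) (x y : ℤ) : ∃ z, a ∣ z - x ∧ b ∣ z - y := by
  obtain ⟨u, v, e⟩ := h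
  exact ⟨x * (v * b) + y * (u * a), ⟨u * (y - x), by linear_combination x * e⟩,
    v * (x - y), by linear_combination y * e⟩

theorem ex_sqrt (d : ℤ) (n : ℕ) : Squarefree n →
    (∀ p : ℕ, p.Prime → p ∣ n → J(d | p) = 1) → ∃ y : ℤ, (n : ℤ) ∣ y ^ 2 - d := by
  induction n using induction_on_primes with
  | zero => exact fun h => absurd h not_squarefree_zero
  | one => exact fun _ _ => ⟨0, one_dvd _⟩
  | prime_mul p a hp ih =>
    intro h k
    obtain ⟨h1, -, h2⟩ := Nat.squarefree_mul_iff.1 h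
    obtain ⟨y, hy⟩ := ih h2 fun q hq d => k q hq (d.mul_left p)
    have := Fact.mk hp
    obtain ⟨x, hx⟩ := ZMod.isSquare_of_jacobiSym_eq_one (k p hp (dvd_mul_right p a))
    have c := Nat.isCoprime_iff_coprime.2 h1
    obtain ⟨z, ⟨s, e1⟩, t, e2⟩ := crt c x.val y
    refine ⟨z, Nat.cast_mul (α := ℤ) p a ▸ c.mul_dvd ?_ ?_⟩
    · rw [← ZMod.intCast_zmod_eq_zero_iff_dvd, sub_eq_iff_eq_add.1 e1]
      simp [hx, sq]
    · convert dvd_add hy (dvd_mul_right (a : ℤ) (t * (z + y))) using 1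
      linear_combination (z + y) * e2

theorem hensel {e m x : ℤ} (h : m ∣ x ^ 2 + x + e) (hc : IsCoprime (2 * x + 1) m) (k : ℕ) :
    ∃ y, m ∣ y - x ∧ m ^ (k + 1) ∣ y ^ 2 + y + e := by
  induction k with
  | zero => exact ⟨x, by simp, by simpa using h⟩
  | succ k ih =>
    obtain ⟨y, ⟨t, h1⟩, s, h2⟩ := ih
    obtain ⟨u, v, h3⟩ : IsCoprime (2 * y + 1) m := by
      rw [show 2 * y + 1 = 2 * x + 1 + m * (2 * t) by linear_combination 2 * h1]
      exact hc.add_mul_left_left _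
    exact ⟨y - u * s * m ^ (k + 1), ⟨t - u * s * m ^ k, by linear_combination h1⟩,
      s * v + u ^ 2 * s ^ 2 * m ^ k, by linear_combination h2 - s * m ^ (k + 1) * h3⟩

variable {N δ δ' : ℕ} {β : ℤ}

theorem cop_d (h : Dat N δ δ' β) : IsCoprime (2 * N * δ : ℤ) δ' := cop_of fun p hp a b => by
  by_cases e : p = 2
  · have := h.m8
    subst e
    omega
  · have := h.spl p hp e (((Nat.Prime.dvd_mul hp).1 (by exact_mod_cast mul_assoc (2 : ℤ) N δ ▸ a)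
      ).resolve_left fun d => e ((Nat.prime_dvd_prime_iff_eq hp Nat.prime_two).1 d))
    rw [J_dvd hp.one_lt (dvd_neg.2 b)] at this
    omega

theorem cop_n (h : Ok N δ) : IsCoprime (2 * N : ℤ) δ :=
  (Nat.isCoprime_iff_coprime.2 (Nat.coprime_two_left.2 h.odd)).mul_left
    (Nat.isCoprime_iff_coprime.2 h.cop)

theorem ex_beta (h : Dat N δ δ' β) (k : ℕ) :
    ∃ β' : ℤ, (2 * N : ℤ) ∣ β' - β ∧ 4 * (2 * N * δ : ℤ) ^ k ∣ β' ^ 2 + δ' := by
  obtain ⟨y, hy⟩ := ex_sqrt (-δ') δ h.ok.sq fun p hp d =>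
    h.spl p hp (fun e => h.ok.odd.not_two_dvd_nat (e ▸ d)) (d.mul_left N)
  have c : IsCoprime (2 * 2 * (2 * N) : ℤ) δ :=
    ((cop_n h.ok).of_mul_left_left.mul_left (cop_n h.ok).of_mul_left_left).mul_left (cop_n h.ok)
  obtain ⟨z, ⟨s, e1⟩, t, e2⟩ := crt c β y
  obtain ⟨u, hu⟩ := h.rt
  obtain ⟨w, hw⟩ := c.mul_dvd (z := z ^ 2 + δ')
    ⟨2 * u + s * (z + β), by linear_combination hu + (z + β) * e1⟩ (by
      convert dvd_add hy (dvd_mul_right (δ : ℤ) (t * (z + y))) using 1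
      linear_combination (z + y) * e2)
  obtain ⟨e, he⟩ : ∃ e : ℤ, δ' = 4 * e - 1 := ⟨(δ' + 1) / 4, by have := h.m8; omega⟩
  obtain ⟨x, rfl⟩ : Odd z := by
    have : Odd (z ^ 2) := ⟨4 * N * δ * w - 2 * e, by linear_combination hw - he⟩
    simpa [parity_simps] using this
  obtain ⟨v, ⟨a, h1⟩, b, h2⟩ := hensel (e := e) (m := 2 * N * δ) (x := x) ⟨w, by linarith⟩
    ((IsCoprime.pow_left_iff two_pos).1 (by
      rw [show (2 * x + 1) ^ 2 = -δ' + 2 * N * δ * (4 * w) by linear_combination hw]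
      exact (cop_d h).symm.neg_left.add_mul_left_left _)) k
  exact ⟨2 * v + 1, ⟨4 * s + 2 * δ * a, by linear_combination e1 + 2 * h1⟩,
    2 * N * δ * b, by linear_combination 4 * h2 + he⟩

/-- automorphs are trivial -/
theorem aut {l : Fm} {γ : SL(2, ℤ)} (hs : Squarefree (disc l)) (h4 : disc l < -4) (a : l.1 ≠ 0)
    (h : fa l γ = l) : γ 1 0 = 0 ∧ γ 0 1 = 0 := by
  have d := det' γ
  have h1 : l.1 * γ 0 0 ^ 2 + l.2.1 * γ 0 0 * γ 1 0 + l.2.2 * γ 1 0 ^ 2 = l.1 := congrArg (·.1) h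
  have h2 : 2 * l.1 * γ 0 0 * γ 0 1 + l.2.1 * (γ 0 0 * γ 1 1 + γ 0 1 * γ 1 0) +
    2 * l.2.2 * γ 1 0 * γ 1 1 = l.2.1 := congrArg (·.2.1) h
  generalize γ 0 0 = x, γ 0 1 = x', γ 1 0 = y, γ 1 1 = y' at *
  have e1 : l.2.1 * y = l.1 * (y' - x) := mul_left_cancel₀ two_ne_zero (by
    linear_combination 2 * y' * h1 - y * h2 - (2 * l.1 * x + l.2.1 * y) * d)
  have e2 : l.2.2 * y = -(l.1 * x') := mul_left_cancel₀ two_ne_zero (by
    linear_combination x * h2 - 2 * x' * h1 - (l.2.1 * x + 2 * l.2.2 * y) * d)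
  have e3 : l.1 ^ 2 * ((x + y') ^ 2 - 4) = disc l * y ^ 2 := by
    rw [disc]
    linear_combination 4 * l.1 ^ 2 * d - (l.2.1 * y + l.1 * (y' - x)) * e1 + 4 * l.1 * y * e2
  by_cases y0 : y = 0
  · simpa [y0, a] using e2
  obtain ⟨g, u, v, g0, c, e4, rfl⟩ := Int.exists_gcd_one' (Int.gcd_pos_of_ne_zero_left y a)
  have e5 : u ^ 2 * ((x + y') ^ 2 - 4) = disc l * v ^ 2 :=
    mul_left_cancel₀ (pow_ne_zero 2 (Int.natCast_ne_zero.2 g0.ne')) (by
      rw [e4] at e3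
      linear_combination e3)
  have := hs u (sq u ▸ (Int.isCoprime_iff_gcd_eq_one.2 c).pow.dvd_of_dvd_mul_right ⟨_, e5.symm⟩)
  have v0 : 0 < v ^ 2 := sq_pos_of_ne_zero (left_ne_zero_of_mul y0)
  rw [Int.isUnit_sq this] at e5
  nlinarith [sq_nonneg (x + y')]

theorem eq_out {P : Fm → Prop} (D : ℤ) (h : ∀ l, disc l = D → ∃ γ, P (fa l γ)) (hD : D < 0) :
    ∃ t : Finset Fm, (∀ Q ∈ t, disc Q = D ∧ 0 < Q.1 ∧ P Q) ∧
      ∀ Q, disc Q = D → 0 < Q.1 → ∃! Q', Q' ∈ t ∧ ∃ γ, fa Q γ = Q' := by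
  classical
  obtain ⟨R, h1, h2⟩ := red D
  let ρ : Fm → Fm := fun l => Classical.epsilon fun m => P m ∧ ∃ γ, fa l γ = m
  have k : ∀ l, disc l = D → P (ρ l) ∧ ∃ γ, fa l γ = ρ l := fun l e =>
    Classical.epsilon_spec (p := fun m => P m ∧ ∃ γ, fa l γ = m) ((h l e).elim fun γ a =>
      ⟨_, a, γ, rfl⟩)
  have k' : ∀ l γ, ρ (fa l γ) = ρ l := fun l γ => congrArg Classical.epsilon (funext fun m =>
    propext (and_congr_right' ⟨fun ⟨g, e⟩ => ⟨γ * g, fa_fa l γ g ▸ e⟩, fun ⟨g, e⟩ =>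
      ⟨γ⁻¹ * g, by rwa [fa_fa, mul_inv_cancel_left]⟩⟩))
  refine ⟨R.image ρ, Finset.forall_mem_image.2 fun l hl => ?_, fun Q a b => ⟨ρ Q, ⟨?_, (k Q a).2⟩,
    fun Q' ⟨h3, γ, e⟩ => ?_⟩⟩
  · obtain ⟨a, γ, e⟩ := k l (h1 l hl).1
    exact ⟨e ▸ (disc_fa l γ).trans (h1 l hl).1, e ▸ pos_fa ((h1 l hl).1 ▸ hD) (h1 l hl).2 γ, a⟩
  · obtain ⟨γ, e⟩ := h2 Q a hD b
    exact Finset.mem_image.2 ⟨_, e, k' Q γ⟩
  · obtain ⟨l, hl, rfl⟩ := Finset.mem_image.1 h3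
    obtain ⟨-, g, e'⟩ := k l (h1 l hl).1
    rw [← k' l g, e', ← k' Q γ, e]

theorem ut_fa (k j b : ℤ) (l : Fm) (g : SL(2, ℤ)) (h : g 0 1 = k * b - j * g 1 1) :
    ut k 0 1 (fa l g) = fa (ut k (-j) 1 l) (mk (g 0 0 + j * g 1 0) b (k * g 1 0) (g 1 1) (by
      linear_combination det' g + g 1 0 * h)) := by
  rw [fa_mk]
  refine Prod.ext ?_ (Prod.ext ?_ ?_) <;> simp only [ut, fa, val, h] <;> ring

theorem ut_eq (k j : ℤ) (l : Fm) : ut k j 1 l = ut k 0 1 (fa l (mk 1 j 0 1 (by simp))) := by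
  refine Prod.ext ?_ (Prod.ext ?_ ?_) <;> simp only [ut, fa_mk, val] <;> ring

end Hd

open Hd

theorem kl : KL := fun N _ δ δ' M k β h hM hk => by
  have N0 := NeZero.pos N
  have d0 : (δ : ℤ) ≠ 0 := Int.natCast_ne_zero.2 h.ok.sq.ne_zero
  have M0 : 0 < M := Nat.pos_of_dvd_of_pos hk (pow_pos (by have := h.ok.one; positivity) k)
  have d4 : -(δ' : ℤ) < -4 := by
    have := h.big
    have := pow_pos N0 4
    omega
  have hM' : (2 * N * δ : ℤ) ∣ M := by exact_mod_cast hM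
  have hk' : (M : ℤ) ∣ (2 * N * δ) ^ k := by exact_mod_cast hk
  have dM : (δ : ℤ) ∣ M := (dvd_mul_left _ _).trans hM'
  have nM : (2 * N : ℤ) ∣ M := (dvd_mul_right _ _).trans hM'
  obtain ⟨β', h1, h2⟩ := ex_beta h k
  replace h2 := (mul_dvd_mul_left 4 hk').trans h2
  have c1 : IsCoprime (-δ' : ℤ) M := ((cop_d h).pow_left.of_isCoprime_of_dvd_left hk').symm.neg_left
  have c2 : IsCoprime β' M := (IsCoprime.pow_left_iff two_pos).1 (by
    obtain ⟨u, e⟩ := h2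
    rw [show β' ^ 2 = -δ' + M * (4 * u) by linear_combination e]
    exact c1.add_mul_left_left _)
  obtain ⟨t, h3, h4⟩ := eq_out (P := fun Q => (M : ℤ) ∣ Q.1 ∧ (2 * M : ℤ) ∣ Q.2.1 - β' ∧
    (M : ℤ) ∣ Q.2.2) (-δ') (fun l e => by
      obtain ⟨γ, ⟨a, ha⟩, b, hb⟩ := (cls M l β' M0 (by rwa [e, sub_neg_eq_add]) (e ▸ c1)).1
      obtain ⟨u, v, e⟩ := c2
      refine ⟨γ * mk 1 (-u * (fa l γ).2.2) 0 1 (by simp), ?_⟩
      rw [← fa_fa, fa_mk]
      generalize fa l γ = m at *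
      exact ⟨⟨a, by simp [val, ha]⟩, ⟨b - a * u * m.2.2, by
        linear_combination hb - 2 * u * m.2.2 * ha⟩, a * (u * m.2.2) ^ 2 - 2 * b * u * m.2.2 +
          v * m.2.2, by
            simp only [val]
            linear_combination (u * m.2.2) ^ 2 * ha - u * m.2.2 * hb - m.2.2 * e⟩) (by omega)
  choose! w hw using fun Q (hQ : Q ∈ t) =>
    ex_root (l := Q) (by rw [(h3 Q hQ).1]; omega) (h3 Q hQ).2.1
  refine ⟨β', t, w, h1, fun Q hQ => by simpa [and_assoc, hw Q hQ] using h3 Q hQ, h4,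
    fun s hs A _ Φ hΦ => ?_⟩
  let p : Fm × ℕ → ℍ := fun i => ofComplex ((i.2 + w i.1) / δ)
  have k1 : ∀ Q ∈ t, ∀ j : ℕ, disc (ut δ (-j) 1 Q) = -((δ : ℤ) * (δ * δ' : ℕ)) ∧
      evq (ut δ (-j) 1 Q) (p (Q, j)) = 0 ∧ 0 < (ut δ (-j) 1 Q).1 ∧ (N : ℤ) ∣ (ut δ (-j) 1 Q).1 ∧
      (2 * N : ℤ) ∣ (ut δ (-j) 1 Q).2.1 - β * δ ∧ (δ : ℤ) ∣ (ut δ (-j) 1 Q).2.2 - -β' * j :=
    fun Q hQ j => by
      obtain ⟨a1, a2, ⟨a, a3⟩, ⟨b, a4⟩, c, a5⟩ := h3 Q hQ
      obtain ⟨m, rfl⟩ := hM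
      obtain ⟨u, hu⟩ := h1
      have : (δ : ℂ) ≠ 0 := by exact_mod_cast d0
      push_cast at a3 a4 a5
      refine ⟨by rw [disc_ut, a1]; push_cast; ring, ?_, mul_pos a2 (by positivity),
        ⟨2 * δ * m * a * δ ^ 2, by simp only [ut, a3]; ring⟩, ⟨δ * (u + 2 * δ * m * (b - a * j)), by
          simp only [ut]
          linear_combination δ * (a4 + hu) - 2 * δ * j * a3⟩,
        2 * N * m * (a * j ^ 2 - 2 * b * j + c), by
          simp only [ut]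
          linear_combination j ^ 2 * a3 - j * a4 + a5⟩
      rw [evq_ut one_ne_zero, coe_of (by
        simp [div_natCast_im, (w Q).im_pos, Nat.zero_lt_of_lt h.ok.one]), ← hw Q hQ]
      simp [mul_div_cancel₀ _ this]
  have k2 : ∀ Q ∈ t, ∀ j : ℕ, Bd N δ δ' β (p (Q, j)) = J(-β' * j | δ) := fun Q hQ j => by
    obtain ⟨a1, a2, a3, a4, a5, a6⟩ := k1 Q hQ j
    rw [Bd, Zp_eq a1 a2 a3, ph, if_pos ⟨a4, cast_eq (by exact_mod_cast a5),
      a1 ▸ ⟨_, neg_mul_eq_mul_neg _ _⟩⟩, ← J_congr a6, J_prod h.ok.sq]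
    exact Finset.prod_congr rfl fun q hq => if_pos (((Int.natCast_dvd_natCast.2
      (Nat.dvd_of_mem_primeFactors hq)).trans (dvd_pow_self _ two_ne_zero)).mul_left _)
  have c3 : ∀ l : Fm, disc l = -((δ : ℤ) * (δ * δ' : ℕ)) → (N : ℤ) ∣ l.1 →
      (2 * N : ℤ) ∣ l.2.1 - β * δ → ∀ γ, (N : ℤ) ∣ (fa l γ).1 →
      (2 * N : ℤ) ∣ (fa l γ).2.1 - β * δ → γ ∈ Gamma0 N := fun l e a b γ => by
    refine (cls N l (β * δ) N0 ?_ ?_).2 γ a b
    · obtain ⟨u, hu⟩ := h.rt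
      exact ⟨4 * u * δ ^ 2, by rw [e]; push_cast; linear_combination δ ^ 2 * hu⟩
    · have := (cop_n h.ok).of_mul_left_right
      rw [e, Nat.cast_mul]
      exact (this.mul_right (this.mul_right (cop_d h).of_mul_left_left.of_mul_left_right)
        ).symm.neg_left
  have iv : ∀ γ ∈ Gamma0 N, ∀ z, Bd N δ δ' β (γ • z) = Bd N δ δ' β z :=
    fun γ hγ => Zp_inv h.ok.odd hγ
  rw [sum_reps iv hs (T := t ×ˢ Finset.range δ) (p := p)
    (fun z hz => ?_) (fun ⟨Q, j⟩ hi ⟨Q', j'⟩ hi' h0 γ hγ e => ?_) hΦ, Finset.sum_product]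
  · exact Finset.sum_congr rfl fun Q hQ => Finset.sum_congr rfl fun j _ => by rw [← k2 Q hQ]
  · obtain ⟨l, a1, a2, a3, a4⟩ := Zp_ne hz
    obtain ⟨b1, b2, b3, b4⟩ := ph_ne a4
    obtain ⟨γ₁, e1⟩ := rep d0 (prm_gc h.ok.sq.ne_zero b4)
    obtain ⟨γ₂, e2, u, e3⟩ := tr_b (r := δ * (fa l γ₁).2.1) e1 (by
      obtain ⟨u, rfl⟩ := h.ok.odd
      exact ⟨u * (fa l γ₁).2.1, by push_cast; ring⟩)
    rw [← e2] at e1
    rw [fa_fa] at e1 e3
    have e4 := (disc_fa l (γ₁ * γ₂)).trans a1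
    have d2 : (δ : ℤ) ∣ (fa l (γ₁ * γ₂)).2.1 := ⟨2 * u + (fa l γ₁).2.1, by linear_combination e3⟩
    have n2 := (cop_n h.ok).of_mul_left_left
    obtain ⟨μ, e5⟩ := mem_dg.2 ⟨((n2.mul_left n2).mul_left e1).symm.pow_left.dvd_of_dvd_mul_left (by
      convert dvd_sub (pow_dvd_pow_of_dvd d2 2) ⟨-δ', e4.trans (by push_cast; ring)⟩ using 1
      rw [disc]
      ring), d2⟩
    have e6 : disc μ = -δ' := mul_left_cancel₀ (pow_ne_zero 2 d0) (by
      rw [← e5, disc_ut] at e4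
      push_cast at e4
      linear_combination e4)
    obtain ⟨Q, ⟨hQ, g, e7⟩, -⟩ := h4 μ e6 (by
      have := pos_fa (root_neg a2 a3.ne') a3 (γ₁ * γ₂)
      rw [← e5] at this
      exact (mul_pos_iff_of_pos_right (by positivity)).1 this)
    obtain rfl : μ = fa Q g⁻¹ := by rw [← e7, fa_inv]
    obtain ⟨-, -, ⟨a, c4⟩, -, c, c5⟩ := h3 Q hQ
    obtain ⟨m, hm⟩ := dM
    obtain ⟨x, y, e8⟩ : IsCoprime (g⁻¹ 1 1) (δ : ℤ) := by
      rw [← e5, show (ut δ 0 1 (fa Q g⁻¹)).2.2 = Q.2.1 * g⁻¹ 0 1 * g⁻¹ 1 1 +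
        δ * (m * (a * g⁻¹ 0 1 ^ 2 + c * g⁻¹ 1 1 ^ 2)) by simp only [ut, fa, c4, c5, hm]; ring] at e1
      exact (IsCoprime.of_add_mul_left_left e1).of_mul_left_right
    obtain ⟨j, j1, j2⟩ : ∃ j : ℕ, j < δ ∧ (j : ℤ) = -x * g⁻¹ 0 1 % δ :=
      have := Int.emod_lt_of_pos (-x * g⁻¹ 0 1) (Int.natCast_pos.2 (Nat.zero_lt_of_lt h.ok.one))
      have := Int.emod_nonneg (-x * g⁻¹ 0 1) d0
      ⟨(-x * g⁻¹ 0 1 % δ).toNat, by omega, by omega⟩
    rw [ut_fa δ j (y * g⁻¹ 0 1 - -x * g⁻¹ 0 1 / δ * g⁻¹ 1 1) Q g⁻¹ (by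
      rw [j2, Int.emod_def]
      linear_combination -g⁻¹ 0 1 * e8)] at e5
    obtain ⟨-, f2, f3, f4, f5, -⟩ := k1 Q hQ j
    have e9 := fa_inv _ _ ▸ congrArg (fa · (mk _ _ _ _ _)⁻¹) e5
    rw [fa_fa] at e9
    refine ⟨(Q, j), Finset.mem_product.2 ⟨hQ, Finset.mem_range.2 j1⟩, _, inv_mem (c3 l a1 b1 (by
      exact_mod_cast (ZMod.intCast_eq_intCast_iff_dvd_sub _ _ _).1 b2.symm) _ (e9 ▸ f4) (e9 ▸ f5)),
      root_one ?_ f2 f3.ne'⟩
    rwa [e9, root_fa, smul_inv_smul]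
  · obtain ⟨hQ, j1⟩ := Finset.mem_product.1 hi
    obtain ⟨hQ', j2⟩ := Finset.mem_product.1 hi'
    obtain ⟨a1, a2, a3, -⟩ := k1 Q hQ j
    obtain ⟨b1, b2, b3, -, -, u, b6⟩ := k1 Q' hQ' j'
    have e1 := root_pos a2 ((root_fa _ γ _).2 (e ▸ b2)) ((disc_fa _ _).trans (b1.trans a1.symm)) a3
      (pos_fa (root_neg b2 b3.ne') b3 γ)
    rw [← iv γ hγ, e, k2 Q' hQ'] at h0
    have c4 : IsCoprime (ut δ (-j') 1 Q').2.2 δ := by
      rw [sub_eq_iff_eq_add'.1 b6]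
      refine (Int.isCoprime_iff_gcd_eq_one.2 ?_).add_mul_left_left _
      by_contra c
      exact h0 (jacobiSym.eq_zero_iff.2 ⟨h.ok.sq.ne_zero, c⟩)
    obtain ⟨c, hc⟩ : (δ : ℤ) ∣ γ 1 0 := by
      refine ((Int.squarefree_natCast.2 h.ok.sq).dvd_pow_iff_dvd two_ne_zero).1
        (c4.symm.dvd_of_dvd_mul_left ⟨Q.1 * δ - Q'.1 * δ * γ 0 0 ^ 2 -
          (2 * Q'.1 * -j' + Q'.2.1) * γ 0 0 * γ 1 0, ?_⟩)
      have := congrArg (·.1) e1
      simp only [fa, ut] at this ⊢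
      linear_combination this
    have d := det' γ
    have e2 := ut_fa δ j' (γ 0 1) Q' (mk (γ 0 0 - j' * c) (δ * γ 0 1 - j' * γ 1 1) c (γ 1 1) (by
      linear_combination d + γ 0 1 * hc)) rfl
    replace e2 := e2.trans ((congrArg _ (Subtype.ext (Eq.trans (by simp [Hd.mk, hc])
      (Matrix.eta_fin_two γ.1).symm))).trans (e1.trans (ut_eq _ _ _)))
    have e3 := congrArg (fa · (mk 1 (-j) 0 1 (by simp))⁻¹) (ut_inj d0 one_ne_zero e2)
    simp only [fa_fa, mul_inv_cancel, fa_one] at e3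
    obtain rfl : Q = Q' := (h4 Q' (h3 Q' hQ').1 (h3 Q' hQ').2.1).unique ⟨hQ, _, e3⟩
      ⟨hQ', 1, fa_one _⟩
    obtain ⟨e4, e5⟩ := aut (by
      rw [(h3 Q hQ).1]
      exact fun x d => Int.squarefree_natCast.2 h.sq x (dvd_neg.1 d)) (by rwa [(h3 Q hQ).1]) (h3 Q hQ).2.1.ne' e3
    rw [Matrix.SpecialLinearGroup.coe_mul, Matrix.SpecialLinearGroup.coe_inv] at e4 e5
    simp [Hd.mk, Matrix.mul_apply, Matrix.adjugate_fin_two] at e4 e5
    rw [hc, e4, mul_zero, mul_zero, sub_zero] at d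
    refine congrArg _ (Nat.ModEq.eq_of_lt_of_lt (Nat.modEq_iff_dvd.2 ⟨γ 0 0 * γ 0 1, ?_⟩)
      (Finset.mem_range.1 j1) (Finset.mem_range.1 j2))
    rcases Int.mul_eq_one_iff_eq_one_or_neg_one.1 d with a | a <;> simp [a, e4] at e5 ⊢ <;> linarith

theorem bdv : BDV := fun N _ δ δ' β h => by
  have o' : Odd δ' := Nat.odd_iff.2 (by have := h.m8; omega)
  have c1 := (cop_d h).of_mul_left_right
  have d0 : (δ : ℤ) ≠ 0 := Int.natCast_ne_zero.2 h.ok.sq.ne_zero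
  have d1 : (δ' : ℤ) ≠ 0 := Int.natCast_ne_zero.2 h.sq.ne_zero
  refine ⟨funext fun z => finsum_congr fun l => if_ctx_congr (and_congr_left' (by
    rw [mul_comm])) (fun a => ?_) fun _ => rfl, fun s hs => ?_, fun z hz n l a b => ?_⟩
  · have e : disc l = -(δ * δ' * δ) := by simpa using a.1
    refine if_ctx_congr (by simp [e]) (fun _ => ?_) fun _ => rfl
    have c := Nat.isCoprime_iff_coprime.1 c1
    rw [gc, gc, c.primeFactors_mul, Finset.prod_union c.disjoint_primeFactors, ← gc, ← gc]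
    by_cases g : gc δ l = 0
    · rw [g, zero_mul]
    obtain ⟨γ, k⟩ := rep (S := 2 * δ * δ') (l := l) (by positivity) fun p hp _ x y w => by
      have pp := Nat.prime_iff_prime_int.1 hp
      have n : IsCoprime (p : ℤ) δ := pp.irreducible.coprime_iff_not_dvd.2 fun d =>
        prm_gc h.ok.sq.ne_zero g p hp d x y w
      refine pp.not_unit (Int.squarefree_natCast.2 h.sq p ((n.mul_left n).dvd_of_dvd_mul_left
        ((n.mul_left n).dvd_of_dvd_mul_right (dvd_neg.1 (e ▸ ?_)))))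
      exact dvd_sub (sq l.2.1 ▸ mul_dvd_mul y y) (mul_dvd_mul (x.mul_left 4) w)
    have e' := (disc_fa l γ).trans e
    have a0 := pos_fa (root_neg a.2.1 a.2.2.ne') a.2.2 γ
    have dv : (δ' : ℤ) ∣ disc l := e ▸ dvd_neg.2 ((dvd_mul_left _ _).mul_right _)
    rw [← gc_fa o' dv γ]
    generalize fa l γ = m at *
    obtain ⟨c, hc⟩ : ∃ c : ℕ, m.2.2 = c := ⟨m.2.2.toNat, (Int.toNat_of_nonneg (by
      rw [disc] at e'
      by_contra! H
      have : (0 : ℤ) ≤ δ * δ' * δ := by positivity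
      nlinarith [mul_pos a0 (neg_pos.2 H), sq_nonneg m.2.1])).symm⟩
    have v : val m 0 1 = c := by simp [val, hc]
    rw [hc] at k
    have r := P004H.H871.recip (D := -δ') (n := c) (by have := h.m8; omega)
      (Nat.coprime_two_right.1 (Nat.isCoprime_iff_coprime.1 k.of_mul_right_left.of_mul_right_left))
    have s1 := jacobiSym.sq_one' (Int.isCoprime_iff_gcd_eq_one.1
      k.of_mul_right_left.of_mul_right_right.symm)
    rw [gc_eq o' h.sq (e' ▸ dvd_neg.2 ((dvd_mul_left _ _).mul_right _)) (v ▸ k.of_mul_right_right),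
      v, show J(c | δ') = J(-δ' | c) by simpa using r, ← mul_one J(-δ' | c), ← s1,
      ← jacobiSym.mul_left, J_congr (b := m.2.1 ^ 2) ⟨-4 * m.1, by
        rw [disc, hc] at e'
        linear_combination -e'⟩, jacobiSym.sq_one' (Int.isCoprime_iff_gcd_eq_one.1
          ((IsCoprime.pow_left_iff two_pos).1 ?_)), mul_one]
    rw [disc, hc] at e'
    rw [show m.2.1 ^ 2 = -(δ * δ' * δ) + c * (4 * m.1) by linear_combination e']
    have := k.of_mul_right_left.of_mul_right_right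
    exact ((this.mul_right k.of_mul_right_right).mul_right this).symm.neg_left.add_mul_left_left _
  · obtain ⟨β', t, w, -, -, -, k⟩ := kl N δ δ' _ 1 β h dvd_rfl (by rw [pow_one])
    have := NeZero.mk h.ok.sq.ne_zero
    obtain ⟨g, -, hg⟩ := (P004H.H871.rc_odd δ this h.ok.sq h.ok.odd).gauss
    have e : ∑ j ∈ Finset.range δ, J(j | δ) = 0 := by
      have := hg 0
      simp only [Int.cast_zero, mul_zero, AddChar.map_zero_eq_one, mul_one, zero_mul,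
        jacobiSym.zero_left h.ok.one] at this
      rw [Finset.sum_congr rfl fun j hj => ?_, sum_zm fun x : ZMod δ => J(x.val | δ)]
      · exact_mod_cast this
      · rw [ZMod.val_cast_of_lt (Finset.mem_range.1 hj)]
    simpa [jacobiSym.mul_left, ← Finset.mul_sum, e, -neg_mul] using
      k s hs ℤ (fun _ => 1) fun _ _ _ => rfl
  · obtain ⟨m, a1, a2, a3, -⟩ := Zp_ne hz
    have e := root_sq a2 b
    rw [a, a1] at e
    have : IsSquare ((δ * δ' * n : ℕ) : ℚ) := ⟨l.1 * δ * δ' / m.1, by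
      have : (m.1 : ℚ) ≠ 0 := Int.cast_ne_zero.2 a3.ne'
      have e' : (n * m.1 ^ 2 : ℚ) = δ * δ' * l.1 ^ 2 := by
        exact_mod_cast mul_left_cancel₀ d0 (show δ * (n * m.1 ^ 2) = δ * (δ * δ' * l.1 ^ 2) by
          push_cast at e
          linear_combination -e)
      field_simp
      push_cast
      linear_combination δ * δ' * e'⟩
    exact Rat.isSquare_natCast_iff.1 this

end Vale.Agent.P004Z
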