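import Vale.Agent.P004Z.St
import Vale.Agent.P004Z.Hd.Bas

/-!
# P004Z, block G8: rows CLS and DIVS
-/

set_option autoImplicit false
set_option linter.all false

open Complex UpperHalfPlane CongruenceSubgroup
open scoped MatrixGroups NumberTheorySymbols

noncomputable section

namespace Vale.Agent.P004Z

namespace Hd

variable {N δ n : ℕ} {r : ZMod (2 * N)} {l : Fm} {z : ℍ}

theorem Zp_eq (h : disc l = -((δ : ℤ) * n)) (hz : evq l z = 0) (a : 0 < l.1) :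
    Zp N δ n r z = ph N δ r l := by
  rw [Zp, finsum_eq_single _ l fun m hm => if_neg fun e =>
    hm (root_pos hz e.2.1 (e.1.trans h.symm) a e.2.2), if_pos ⟨h, hz, a⟩]

theorem Zp_ne (h : Zp N δ n r z ≠ 0) :
    ∃ l, disc l = -((δ : ℤ) * n) ∧ evq l z = 0 ∧ 0 < l.1 ∧ ph N δ r l ≠ 0 := by
  by_contra! H
  exact h (finsum_eq_zero_of_forall_eq_zero fun l => ite_eq_right_iff.2 fun e =>
    H l e.1 e.2.1 e.2.2)

theorem Zp_inv (h : Odd δ) {γ : SL(2, ℤ)} (hγ : γ ∈ Gamma0 N) (z : ℍ) :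
    Zp N δ n r (γ • z) = Zp N δ n r z := by
  refine finsum_eq_of_bijective (fun l => fa l γ) (Function.bijective_iff_has_inverse.2
    ⟨fun l => fa l γ⁻¹, fun l => fa_inv l γ, fun l => by simpa using fa_inv l γ⁻¹⟩) fun l => ?_
  simp only [disc_fa, root_fa, ph_fa h r l hγ]
  refine if_congr (and_congr_right fun _ => and_congr_right fun e => ⟨fun a =>
    pos_fa (root_neg e a.ne') a γ, fun a => ?_⟩) rfl rfl
  exact fa_inv l γ ▸ pos_fa (root_neg ((root_fa l γ z).2 e) a.ne') a γ⁻¹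

theorem Zd_eq (h : Ok N δ) (z : ℍ) : Zd N δ n r z = Zp N δ n r z + eps δ * Zp N δ n (-r) z := by
  classical
  by_cases H : ∃ l, disc l = -((δ : ℤ) * n) ∧ evq l z = 0 ∧ 0 < l.1
  · obtain ⟨l, h1, h2, h3⟩ := H
    rw [Zp_eq h1 h2 h3, Zp_eq h1 h2 h3, ← ph_neg h.sq, neg_neg, Zd,
      finsum_eq_sum_of_support_subset _ (s := {l, -l}) fun m hm => by
        have := (ite_ne_right_iff.1 hm).1
        simpa using root_uniq h2 this.2 (this.1.trans h1.symm),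
      Finset.sum_pair fun e => by
        have := congrArg Prod.fst e
        rw [Prod.fst_neg] at this
        omega,
      if_pos ⟨h1, h2⟩, if_pos ⟨(disc_neg l).trans h1, by rw [evq_neg, h2, neg_zero]⟩]
  · have k : ∀ r : ZMod (2 * N), Zp N δ n r z = 0 := fun r => by
      by_contra e
      exact H ((Zp_ne e).imp fun l a => ⟨a.1, a.2.1, a.2.2.1⟩)
    rw [k, k, mul_zero, add_zero]
    refine finsum_eq_zero_of_forall_eq_zero fun l => ite_eq_right_iff.2 fun e => ?_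
    rcases lt_trichotomy 0 l.1 with a | a | a
    · exact absurd ⟨l, e.1, e.2, a⟩ H
    · rw [root_zero e.2 a.symm, ph_zero h.one]
    · exact absurd ⟨-l, (disc_neg l).trans e.1, by rw [evq_neg, e.2, neg_zero], neg_pos.2 a⟩ H

/-- reduction theory -/
theorem red (D : ℤ) : ∃ R : Finset Fm, (∀ l ∈ R, disc l = D ∧ 0 < l.1) ∧
    ∀ l, disc l = D → D < 0 → 0 < l.1 → ∃ γ, fa l γ ∈ R := by
  have : {l : Fm | (disc l = D ∧ 0 < l.1) ∧ l.1 ≤ -D ∧ |l.2.1| ≤ -D}.Finite := by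
    refine Set.Finite.of_finite_image (f := fun l => (l.1, l.2.1))
      (((Set.finite_Icc 0 (-D)).prod (Set.finite_Icc D (-D))).subset ?_) fun l a m b e => ?_
    · rintro _ ⟨l, a, rfl⟩
      exact ⟨⟨a.1.2.le, a.2.1⟩, by simpa using abs_le.1 a.2.2⟩
    · obtain ⟨e1, e2⟩ := Prod.mk.inj e
      have := a.1.1.trans b.1.1.symm
      rw [disc, disc, ← e1, ← e2] at this
      exact Prod.ext e1 (Prod.ext e2 (mul_left_cancel₀ a.1.2.ne' (by linarith)))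
  refine ⟨this.toFinset, fun l h => (this.mem_toFinset.1 h).1, fun l h d a => ?_⟩
  obtain ⟨z, hz⟩ := ex_root (h ▸ d) a
  obtain ⟨g, hg⟩ := ModularGroup.exists_smul_mem_fd z
  have h1 : evq (fa l g⁻¹) (g • z : ℍ) = 0 := by rwa [root_fa, inv_smul_smul]
  have h2 := pos_fa (h ▸ d) a g⁻¹
  have h3 := root_d h1
  have h4 := ModularGroup.three_le_four_mul_im_sq_of_mem_fd hg
  have h5 : (1 : ℝ) ≤ (fa l g⁻¹).1 := by exact_mod_cast h2
  rw [disc_fa, h] at h3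
  have h6 : ((fa l g⁻¹).1 : ℝ) ≤ -D := by nlinarith
  refine ⟨g⁻¹, this.mem_toFinset.2 ⟨⟨(disc_fa _ _).trans h, h2⟩, by exact_mod_cast h6, ?_⟩⟩
  have : |((fa l g⁻¹).2.1 : ℝ)| ≤ -D := by
    rw [root_b h1, abs_mul, abs_mul, abs_of_pos (by linarith : (0 : ℝ) < (fa l g⁻¹).1), abs_neg,
      abs_two]
    nlinarith [hg.2]
  exact_mod_cast this

theorem ex_reps {Γ : Subgroup SL(2, ℤ)} {A : ℍ → ℤ} (hA : ∀ γ ∈ Γ, ∀ z, A (γ • z) = A z)
    {T : Set ℍ} (hT : T.Finite) (h : ∀ z, A z ≠ 0 → ∃ γ ∈ Γ, γ • z ∈ T) : ∃ s, Reps Γ A s := by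
  classical
  let f : ℍ → ℍ := fun z => (Quotient.mk (MulAction.orbitRel Γ ℍ) z).out
  have k : ∀ z, ∃ γ ∈ Γ, γ • z = f z := fun z => by
    obtain ⟨γ, e⟩ := Quotient.mk_out (s := MulAction.orbitRel Γ ℍ) z
    exact ⟨γ, γ.2, e⟩
  have k' : ∀ γ ∈ Γ, ∀ z, f (γ • z) = f z := fun γ hγ z =>
    congrArg Quotient.out (Quotient.sound ⟨⟨γ, hγ⟩, rfl⟩)
  refine ⟨(hT.toFinset.filter fun z => A z ≠ 0).image f, Finset.forall_mem_image.2 fun z hz => ?_,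
    fun z hz => ?_, Finset.forall_mem_image.2 fun z _ => Finset.forall_mem_image.2
      fun w _ γ hγ e => ?_⟩
  · obtain ⟨γ, a, e⟩ := k z
    rw [← e, hA γ a]
    exact (Finset.mem_filter.1 hz).2
  · obtain ⟨γ, a, b⟩ := h z hz
    obtain ⟨γ', a', e⟩ := k z
    exact ⟨γ', a', Finset.mem_image.2 ⟨_, Finset.mem_filter.2 ⟨hT.mem_toFinset.2 b,
      (hA γ a z).symm ▸ hz⟩, (k' γ a z).trans e.symm⟩⟩
  · have := k' γ hγ (f z)
    rw [e] at this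
    simpa [f] using this.symm

theorem sum_reps {Γ : Subgroup SL(2, ℤ)} {A : ℍ → ℤ} (hA : ∀ γ ∈ Γ, ∀ z, A (γ • z) = A z)
    {s : Finset ℍ} (hs : Reps Γ A s) {ι B : Type} [AddCommGroup B] {T : Finset ι} {p : ι → ℍ}
    (ex : ∀ z, A z ≠ 0 → ∃ i ∈ T, ∃ γ ∈ Γ, γ • z = p i)
    (uq : ∀ i ∈ T, ∀ j ∈ T, A (p i) ≠ 0 → ∀ γ ∈ Γ, γ • p i = p j → i = j) {Φ : ℍ → B}
    (hΦ : ∀ γ ∈ Γ, ∀ z, Φ (γ • z) = Φ z) : ∑ z ∈ s, A z • Φ z = ∑ i ∈ T, A (p i) • Φ (p i) := by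
  classical
  choose f f1 g g1 g2 using fun z (hz : z ∈ s) => ex z (hs.sup z hz)
  rw [← Finset.sum_filter_of_ne (s := T) (p := fun i => A (p i) ≠ 0) fun i _ h e =>
    h (by rw [e, zero_smul])]
  refine Finset.sum_bij f (fun z hz => Finset.mem_filter.2 ⟨f1 z hz, ?_⟩) (fun z hz w hw e => ?_)
    (fun i hi => ?_) fun z hz => by rw [← g2, hA _ (g1 z hz), hΦ _ (g1 z hz)]
  · rw [← g2, hA _ (g1 z hz)]
    exact hs.sup z hz
  · exact hs.uq z hz w hw _ (mul_mem (inv_mem (g1 w hw)) (g1 z hz)) (by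
      rw [mul_smul, g2, e, ← g2, inv_smul_smul])
  · obtain ⟨a, b⟩ := Finset.mem_filter.1 hi
    obtain ⟨γ, h1, h2⟩ := hs.ex _ b
    exact ⟨_, h2, (uq i a _ (f1 _ h2) b _ (mul_mem (g1 _ h2) h1) (by rw [mul_smul, g2])).symm⟩

/-- moving the middle coefficient -/
theorem tr_b {M r : ℤ} (h : IsCoprime l.2.2 M) (e : 2 ∣ r - l.2.1) :
    ∃ γ, (fa l γ).2.2 = l.2.2 ∧ 2 * M ∣ (fa l γ).2.1 - r := by
  obtain ⟨u, v, h⟩ := h
  obtain ⟨e, he⟩ := e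
  refine ⟨mk 1 0 (u * e) 1 (by simp), by simp [fa_mk, val], -v * e, ?_⟩
  simp only [fa_mk]
  linear_combination 2 * e * h - he

theorem prm_of {M : ℤ} (h : IsCoprime (disc l) M) : Prm M l := fun p hp d a b c =>
  (Nat.prime_iff_prime_int.1 hp).not_unit (h.isUnit_of_dvd'
    (dvd_sub (dvd_pow b two_ne_zero) (c.mul_left _)) d)

end Hd

open Hd

theorem cls : CLS := fun M l r hM h hc => by
  refine ⟨?_, fun γ ⟨a, ha⟩ ⟨b, hb⟩ ⟨a', ha'⟩ ⟨b', hb'⟩ => g0_dvd.2 ?_⟩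
  · obtain ⟨γ, h1⟩ := rep (Int.natCast_ne_zero.2 hM.ne') (prm_of hc)
    rw [← disc_fa l γ] at h
    obtain ⟨k, hk⟩ := h
    obtain ⟨γ', h2, t, h3⟩ := tr_b (r := r) h1 (by
      refine even_iff_two_dvd.1 ?_
      have : Even (r ^ 2 - (fa l γ).2.1 ^ 2) := ⟨2 * (M * k - (fa l γ).1 * (fa l γ).2.2), by
        rw [disc] at hk
        linear_combination hk⟩
      simpa [parity_simps] using this)
    refine ⟨γ * γ', ?_, fa_fa l γ γ' ▸ ⟨t, h3⟩⟩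
    rw [← disc_fa _ γ', disc, h2, sub_eq_iff_eq_add.1 h3] at hk
    rw [← fa_fa]
    exact h1.symm.dvd_of_dvd_mul_right ⟨k + t * r + M * t ^ 2, by linarith⟩
  · obtain ⟨k, hk⟩ := h
    have : IsCoprime (r ^ 2) (M : ℤ) := by
      rw [sub_eq_iff_eq_add.1 hk, show (4 * M * k + disc l : ℤ) = disc l + M * (4 * k) by ring]
      exact hc.add_mul_left_left _
    refine ((IsCoprime.pow_left_iff two_pos).1 this).symm.dvd_of_dvd_mul_left
      ⟨a' * γ 1 1 - a * γ 0 0 - (b + b') * γ 1 0, mul_left_cancel₀ two_ne_zero ?_⟩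
    simp only [fa] at ha' hb'
    linear_combination -γ 1 0 * hb' - γ 1 0 * hb + 2 * γ 1 1 * ha' - 2 * γ 0 0 * ha -
      (2 * l.1 * γ 0 0 + l.2.1 * γ 1 0) * det' γ

theorem divs : DIVS := fun N _ δ h n r => by
  refine ⟨fun γ hγ => Zp_inv h.odd hγ, Zd_eq h, fun z hz => ?_, fun Γ _ hΓ => ?_⟩
  · obtain ⟨l, h1, h2, h3, h4⟩ := Zp_ne hz
    obtain ⟨⟨a, ha⟩, hb, -⟩ := ph_ne h4
    have := root_neg h2 h3.ne'
    refine ⟨Nat.pos_of_ne_zero fun e => by simp [h1, e] at this, ?_, l, h1, h2⟩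
    obtain ⟨k, hk⟩ := (ZMod.intCast_eq_intCast_iff_dvd_sub l.2.1 r.val (2 * N)).1 (by simp [hb])
    refine ⟨k * l.2.1 + N * k ^ 2 + a * l.2.2, ?_⟩
    rw [disc, ha] at h1
    rw [sub_eq_iff_eq_add.1 hk]
    push_cast
    linear_combination h1
  · obtain ⟨R, h1, h2⟩ := red (-((δ : ℤ) * n))
    refine ex_reps (fun γ hγ => Zp_inv h.odd (hΓ hγ)) (T := ⋃ q : SL(2, ℤ) ⧸ Γ, ⋃ l ∈ R,
      {z | evq l (q.out • z : ℍ) = 0}) (Set.finite_iUnion fun q => R.finite_toSet.biUnion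
        fun l hl => Set.Subsingleton.finite fun z a w b =>
          smul_left_cancel _ (root_one a b (h1 l hl).2.ne')) fun z hz => ?_
    obtain ⟨l, a, b, c, -⟩ := Zp_ne hz
    obtain ⟨γ, e⟩ := h2 l a (a ▸ root_neg b c.ne') c
    obtain ⟨g, hg⟩ := QuotientGroup.mk_out_eq_mul Γ γ⁻¹
    exact ⟨g⁻¹, inv_mem g.2, Set.mem_iUnion.2 ⟨QuotientGroup.mk γ⁻¹, Set.mem_biUnion e (by
      simpa [hg, mul_smul, root_fa] using b)⟩⟩

end Vale.Agent.P004Z
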