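import Vale.Agent.P004Z.Hd.He

/-!
# P004Z: row FTA
-/

set_option autoImplicit false
set_option linter.all false

open Complex UpperHalfPlane
open scoped MatrixGroups ComplexConjugate

noncomputable section

namespace Vale.Agent.P004Z

namespace Hd

variable {ν : ℕ} {α : Type} {f : Fm → α}

/-- periodic functions with values anywhere -/
def Pe (ν : ℕ) (f : Fm → α) : Prop :=
  ∀ l m : Fm, f (l.1 + ν * m.1, l.2.1 + 2 * ν * m.2.1, l.2.2 + ν * m.2.2) = f l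

theorem Pe.fa (h : Pe ν f) (γ : SL(2, ℤ)) : Pe ν fun l => f (fa l γ) := fun l m => by
  simp only []
  rw [← h (P004Z.fa l γ) (val (m.1, 2 * m.2.1, m.2.2) (γ 0 0) (γ 1 0), m.1 * γ 0 0 * γ 0 1 +
    m.2.1 * (γ 0 0 * γ 1 1 + γ 0 1 * γ 1 0) + m.2.2 * γ 1 0 * γ 1 1,
    val (m.1, 2 * m.2.1, m.2.2) (γ 0 1) (γ 1 1))]
  refine congrArg f (Prod.ext ?_ (Prod.ext ?_ ?_)) <;> simp only [P004Z.fa, val] <;> ring

/-- the classes of forms -/
abbrev Qt (ν : ℕ) : Type := ZMod ν × ZMod (2 * ν) × ZMod ν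

def pj (ν : ℕ) (l : Fm) : Qt ν := (l.1, l.2.1, l.2.2)

def lf (q : Qt ν) : Fm := (q.1.val, q.2.1.val, q.2.2.val)

theorem pe_pj : Pe ν (pj ν) := fun l m => by
  have : (2 * ν : ZMod (2 * ν)) = 0 := by exact_mod_cast ZMod.natCast_self (2 * ν)
  simp [pj, this]

variable [NeZero ν]

theorem pj_lf (q : Qt ν) : pj ν (lf q) = q := by simp [pj, lf]

theorem Pe.lf (h : Pe ν f) (l : Fm) : f (lf (pj ν l)) = f l := by
  rw [← h _ (l.1 / ν, l.2.1 / (2 * ν : ℕ), l.2.2 / ν)]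
  simp only [Hd.lf, pj, ZMod.val_intCast, Int.emod_add_mul_ediv]
  rw [show (2 * ν : ℤ) = (2 * ν : ℕ) by simp, Int.emod_add_mul_ediv]

theorem sum_box (g : Fm → ℂ) : ∑ a ∈ Finset.range ν, ∑ b ∈ Finset.range (2 * ν),
    ∑ c ∈ Finset.range ν, g (a, b, c) = ∑ q : Qt ν, g (lf q) := by
  simp only [Fintype.sum_prod_type, ← sum_zm]
  refine Finset.sum_congr rfl fun a ha => Finset.sum_congr rfl fun b hb =>
    Finset.sum_congr rfl fun c hc => ?_
  simp only [lf, ZMod.val_cast_of_lt (Finset.mem_range.1 ha),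
    ZMod.val_cast_of_lt (Finset.mem_range.1 hb), ZMod.val_cast_of_lt (Finset.mem_range.1 hc)]

theorem sum_fa {g : Fm → ℂ} (h : Pe ν g) (γ : SL(2, ℤ)) :
    ∑ q : Qt ν, g (fa (lf q) γ) = ∑ q : Qt ν, g (lf q) :=
  Fintype.sum_bijective (fun q => pj ν (fa (lf q) γ)) (Function.bijective_iff_has_inverse.2
    ⟨fun q => pj ν (fa (lf q) γ⁻¹), fun q => ((pe_pj.fa _).lf _).trans (by rw [fa_inv, pj_lf]),
      fun q => ((pe_pj.fa _).lf _).trans (by rw [fa_fa, inv_mul_cancel, fa_one, pj_lf])⟩) _ _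
    fun q => (h.lf _).symm

theorem pe_ee (m : Fm) : Pe ν fun l => ee (bil l m / (2 * ν)) := fun l k => by
  have : (ν : ℂ) ≠ 0 := Nat.cast_ne_zero.2 (NeZero.ne ν)
  refine exp_eq_exp_iff_exists_int.2 ⟨k.1 * m.2.2 + m.1 * k.2.2 - k.2.1 * m.2.1, ?_⟩
  simp only [bil]
  push_cast
  field_simp
  ring

/-- the action as a permutation -/
def fe (γ : SL(2, ℤ)) : Fm ≃ Fm :=
  ⟨(fa · γ), (fa · γ⁻¹), fun l => fa_inv l γ, fun l => by simpa using fa_inv l γ⁻¹⟩

omit [NeZero ν] in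
theorem gau_fa (l : Fm) (γ : SL(2, ℤ)) (τ : ℂ) (z : ℍ) :
    gau ν (fa l γ) τ z = gau ν l τ (γ • z : ℍ) := by rw [gau, gau, disc_fa, pz_fa]

theorem evq_cj (l : Fm) (z : ℂ) : evq l (conj z) = conj (evq l z) := by simp [evq]

end Hd

open Hd

theorem fta : FTA := fun γ => ⟨fun l => fa_fa l γ, fa_one, fun l => disc_fa l γ,
  fun l m => bil_fa l m γ, fun l z => ⟨pz_fa l γ z, evq_fa l γ z⟩, fun ν φ h0 h => by
    have := NeZero.mk h0.ne'
    refine ⟨Pe.fa h γ, funext fun m => ?_, fun τ z => ⟨?_, ?_⟩⟩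
    · rw [ft, ft, sum_box fun l => φ (fa l γ) * ee (bil l m / (2 * ν)),
        sum_box fun l => φ l * ee (bil l (fa m γ) / (2 * ν)),
        ← sum_fa (g := fun l => φ l * ee (bil l (fa m γ) / (2 * ν)))
          (fun l k => congrArg₂ _ (h l k) (pe_ee _ l k)) γ]
      simp only [bil_fa]
    · simp only [th0, ← gau_fa]
      exact congrArg _ ((fe γ).tsum_eq fun l => φ l * gau ν l τ z)
    · rw [th1, th1, mul_left_comm]
      refine congrArg _ (Eq.trans (tsum_congr fun l => ?_)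
        (((fe γ).tsum_eq _).trans tsum_mul_left))
      have h1 := den_ne γ z
      have h2 : ((γ • z : ℍ) : ℂ).im = (z : ℂ).im / normSq (γ 1 0 * z + γ 1 1 : ℂ) :=
        ModularGroup.im_smul_eq_div_normSq γ z
      have h3 : ((z : ℂ).im : ℂ) ≠ 0 := ofReal_ne_zero.2 z.im_ne_zero
      change _ = _ * (φ (fa l γ) * (evq (fa l γ) _ / _) * gau ν (fa l γ) τ z)
      rw [gau_fa, evq_cj, evq_cj, evq_fa, h2, ofReal_div, normSq_eq_conj_mul_self, map_mul, map_pow]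
      have := (map_ne_zero conj).2 h1
      field_simp⟩

end Vale.Agent.P004Z
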